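import Vale.Agent.P154.Cover

/-!
Certificates for a second factor confined to the image of the simplex under a shift by a
parameter in `[-99/500, 0]`.
-/

namespace Vale.Agent.P154

section generic

variable {α : Type} [Add α] [Mul α] (k : ℤ → α)

/-- Five hundred times the numerator of the second invariant. -/
def inv500 (p q r : α) : α :=
  dif k (k 250 * cub k p q r * tot p q r + k 116 * quad k p q r * (tot p q r * tot p q r))
    (k 425 * (quad k p q r * quad k p q r))

/-- Polynomial form of the one-sided information inequality. -/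
def gaPoly (x1 x2 x3 y1 y2 y3 : α) : α :=
  let S := tot x1 x2 x3
  let R := tot y1 y2 y3
  let a := quad k x1 x2 x3
  let b := quad k y1 y2 y3
  let s0 := tot (x1 * y1) (x2 * y2) (x3 * y3)
  let s1 := tot (x1 * y2) (x2 * y3) (x3 * y1)
  let s2 := tot (x1 * y3) (x2 * y1) (x3 * y2)
  let q0 := quad k (x1 * y1) (x2 * y2) (x3 * y3)
  let q1 := quad k (x1 * y2) (x2 * y3) (x3 * y1)
  let q2 := quad k (x1 * y3) (x2 * y1) (x3 * y2)
  let rhs := k 640000 * a * (S * S) * (R * R * R * R)
    + k 640000 * (S * S * S * S) * b * (R * R)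
    + k (-2500) * a * (S * S) * b * (R * R)
    + k (-2816) * b * (R * R) * inv500 k x1 x2 x3
  rhs * (s0 * s1 * s2)
    + k (-640000) * (q0 * (s1 * s2) + q1 * (s0 * s2) + q2 * (s0 * s1))
      * (S * R * (S * R) * (S * R))

/-- Polynomial form of the one-sided closure inequality. -/
def haPoly (x1 x2 x3 y1 y2 y3 : α) : α :=
  let S := tot x1 x2 x3
  let R := tot y1 y2 y3
  let s0 := tot (x1 * y1) (x2 * y2) (x3 * y3)
  let s1 := tot (x1 * y2) (x2 * y3) (x3 * y1)
  let s2 := tot (x1 * y3) (x2 * y1) (x3 * y2)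
  let f0 := inv500 k (x1 * y1) (x2 * y2) (x3 * y3)
  let f1 := inv500 k (x1 * y2) (x2 * y3) (x3 * y1)
  let f2 := inv500 k (x1 * y3) (x2 * y1) (x3 * y2)
  let c3 := fun z : α => z * z * z
  dif k
    ((f0 * c3 (s1 * s2) + f1 * c3 (s0 * s2) + f2 * c3 (s0 * s1)) * c3 (S * R))
    (c3 (s0 * s1 * s2) * (phi k y1 y2 y3 * R * inv500 k x1 x2 x3))

end generic

lemma inv500_hom (c p q r : ℝ) : inv500 rc (c * p) (c * q) (c * r) = c ^ 4 * inv500 rc p q r := by
  simp only [inv500, tot_hom, quad_hom, cub_hom, dif]; ring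

lemma gaPoly_hom : Hom 7 (gaPoly rc) := by
  intro c d p q r s t u
  have e : ∀ x y : ℝ, c * x * (d * y) = c * d * (x * y) := fun x y => by ring
  simp only [gaPoly, e, tot_hom, quad_hom, inv500_hom]
  ring

lemma haPoly_hom : Hom 13 (haPoly rc) := by
  intro c d p q r s t u
  have e : ∀ x y : ℝ, c * x * (d * y) = c * d * (x * y) := fun x y => by ring
  simp only [haPoly, e, tot_hom, inv500_hom, phi_hom, dif]
  ring

/-- The certificate for the information inequality. -/
def certGA (A B : Cone) : Bool :=
  Ex.good 126 8 (onCones Ex.c (gaPoly Ex.c) A B (.c 1) (.x 0) (.x 1) (.c 1) (.x 2) (.x 3))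

/-- The certificate for the closure inequality. -/
def certHA (A B : Cone) : Bool :=
  Ex.good 198 14 (onCones Ex.c (haPoly Ex.c) A B (.c 1) (.x 0) (.x 1) (.c 1) (.x 2) (.x 3))

theorem nn_certGA (A B : Cone) (h : certGA A B = true) : NN (gaPoly rc) A B := by
  refine nn_of_normal gaPoly_hom (fun A B u v t U W T => ?_) (fun v t W T hv ht hW hT => ?_)
  · simp only [onCones, gaPoly, combo, tot, quad, cub, inv500, dif]
    fun_prop
  · have := Ex.val_nonneg _ (Ex.good_sound _ _ _ h) (four v t W T) (four_nonneg hv ht hW hT)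
      (four_zero v t W T)
    have e : ((1 : ℤ) : ℝ) = 1 := by norm_num
    rw [← e]
    exact this

theorem nn_certHA (A B : Cone) (h : certHA A B = true) : NN (haPoly rc) A B := by
  refine nn_of_normal haPoly_hom (fun A B u v t U W T => ?_) (fun v t W T hv ht hW hT => ?_)
  · simp only [onCones, haPoly, combo, tot, quad, cub, inv500, phi, dif]
    fun_prop
  · have := Ex.val_nonneg _ (Ex.good_sound _ _ _ h) (four v t W T) (four_nonneg hv ht hW hT)
      (four_zero v t W T)
    have e : ((1 : ℤ) : ℝ) = 1 := by norm_num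
    rw [← e]
    exact this

/-- The fundamental cone of the shifted simplex. -/
abbrev coneS : Cone := ((1198, 901, 901), (1198, 1198, 604), (1, 1, 1))
/-- The fundamental cone of the shifted simplex in the reversed orientation. -/
abbrev coneT : Cone := ((1198, 901, 901), (1198, 604, 1198), (1, 1, 1))

end Vale.Agent.P154
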