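import Vale.Agent.P154.Kron
import Vale.Agent.P154.Four.Mask

/-!
The packed coefficient test through one bit mask: the digits are never unpacked.
-/

namespace Vale.Agent.P154

namespace Ex

/-- The tests for one expression, with a mask in place of the digits. -/
def goodM (bits D : ℕ) (e : Ex) : Bool :=
  decide (0 < bits) && decide (deg 0 e < D) && decide (deg 1 e < D) && decide (deg 2 e < D)
    && decide (deg 3 e < D) && decide (2 * bound e < (2 : ℤ) ^ bits)
    && Four.Mask.maskTest 4 bits D (valZ (packed bits D) e)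

lemma good_of_goodM {bits D : ℕ} {e : Ex} (h : goodM bits D e = true) :
    good bits D e = true := by
  simp only [goodM, Bool.and_eq_true, decide_eq_true_eq] at h
  obtain ⟨⟨⟨⟨⟨⟨h5, h0⟩, h1⟩, h2⟩, h3⟩, hb⟩, hm⟩ := h
  simp only [good, Bool.and_eq_true, decide_eq_true_eq]
  refine ⟨⟨⟨⟨⟨h0, h1⟩, h2⟩, h3⟩, hb⟩, ?_⟩
  generalize valZ (packed bits D) e = Z at hm ⊢
  cases Z with
  | negSucc m => simp [Four.Mask.maskTest] at hm
  | ofNat N =>
    simp only [Four.Mask.maskTest, Bool.and_eq_true, Nat.blt_eq, Nat.beq_eq] at hm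
    exact (Four.Mask.check_of_mask bits D h5 (by omega) 4 N hm.1 hm.2).1

end Ex

end Vale.Agent.P154
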