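import Vale.Agent.P154.Pointwise
import Vale.Agent.P154.CertGA1
import Vale.Agent.P154.CertGA2
import Vale.Agent.P154.CertHA1
import Vale.Agent.P154.CertHA2

/-!
Pointwise inequalities with the second vector in the shifted simplex.
-/

namespace Vale.Agent.P154

open Filter Topology

/-- The second invariant, weighted by the mass. -/
noncomputable def mE (p q r : ℝ) : ℝ := inv500 rc p q r / (500 * tot p q r ^ 3)

/-- Membership in the image of the simplex under shifts by parameters in `[-99/500, 0]`. -/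
def Near (p q r : ℝ) : Prop :=
  1500 * p ≤ 599 * tot p q r ∧ 1500 * q ≤ 599 * tot p q r ∧ 1500 * r ≤ 599 * tot p q r

lemma inv500_rot (p q r : ℝ) : inv500 rc q r p = inv500 rc p q r := by
  simp only [inv500, quad_rot p q r, cub_rot p q r, tot_rot p q r]

lemma inv500_swap (p q r : ℝ) : inv500 rc p r q = inv500 rc p q r := by
  simp only [inv500, quad_swap p q r, cub_swap p q r, tot_swap p q r]

lemma mE_rot (p q r : ℝ) : mE q r p = mE p q r := by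
  simp only [mE, inv500_rot p q r, tot_rot p q r]

lemma mE_swap (p q r : ℝ) : mE p r q = mE p q r := by
  simp only [mE, inv500_swap p q r, tot_swap p q r]

lemma mE_scale (c a b e : ℝ) : mE (c * a) (c * b) (c * e) = c * mE a b e := by
  rw [mE, mE, tot_hom, inv500_hom]
  by_cases hc : c = 0
  · simp [hc]
  · field_simp

lemma mE_ones : mE 1 1 1 = 0 := by
  simp only [mE, inv500, cub, quad, tot, dif, rc]; norm_num

lemma abs_mE_le {p q r : ℝ} (hp : 0 ≤ p) (hq : 0 ≤ q) (hr : 0 ≤ r) :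
    |mE p q r| ≤ 8 * mS p q r := by
  rcases eq_or_lt_of_le (tot_nonneg hp hq hr) with h | h
  · rw [mE, mS, ← h]; norm_num
  · rw [mE, mS, abs_div, abs_of_pos (show (0 : ℝ) < 500 * tot p q r ^ 3 by positivity),
      div_le_iff₀ (by positivity)]
    have ha := quad_le hp hq hr
    have h0 := quad_nonneg (p := p) (q := q) (r := r)
    have hc := abs_le.mp (abs_cub_le hp hq hr)
    have h2 : quad rc p q r * quad rc p q r ≤ tot p q r ^ 4 := by
      calc quad rc p q r * quad rc p q r ≤ tot p q r ^ 2 * tot p q r ^ 2 := by gcongr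
        _ = tot p q r ^ 4 := by ring
    have h3 := mul_le_mul_of_nonneg_right hc.2 h.le
    have h4 := mul_le_mul_of_nonneg_right hc.1 h.le
    have h5 := mul_nonneg h0 h0
    have h6 : quad rc p q r * (tot p q r * tot p q r) ≤ tot p q r ^ 4 := by
      calc quad rc p q r * (tot p q r * tot p q r)
          ≤ tot p q r ^ 2 * (tot p q r * tot p q r) :=
            mul_le_mul_of_nonneg_right ha (mul_self_nonneg _)
        _ = tot p q r ^ 4 := by ring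
    have h7 : 0 ≤ quad rc p q r * (tot p q r * tot p q r) :=
      mul_nonneg h0 (mul_self_nonneg _)
    simp only [inv500, dif, rc] at *
    push_cast at *
    rw [abs_le]; constructor <;> nlinarith

/-- The one-sided information inequality. -/
def GA6 (x1 x2 x3 y1 y2 y3 : ℝ) : Prop :=
  mA (x1 * y1) (x2 * y2) (x3 * y3) + mA (x1 * y2) (x2 * y3) (x3 * y1)
      + mA (x1 * y3) (x2 * y1) (x3 * y2)
    ≤ mA x1 x2 x3 * mS y1 y2 y3 + mS x1 x2 x3 * mA y1 y2 y3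
      - mA x1 x2 x3 * mA y1 y2 y3 / 256 - 11 / 5 * mA y1 y2 y3 * mE x1 x2 x3

/-- The one-sided closure inequality. -/
def HA6 (x1 x2 x3 y1 y2 y3 : ℝ) : Prop :=
  mP y1 y2 y3 * mE x1 x2 x3
    ≤ mE (x1 * y1) (x2 * y2) (x3 * y3) + mE (x1 * y2) (x2 * y3) (x3 * y1)
      + mE (x1 * y3) (x2 * y1) (x3 * y2)

lemma gaPoly_eq {x1 x2 x3 y1 y2 y3 : ℝ} (hS : 0 < tot x1 x2 x3) (hR : 0 < tot y1 y2 y3)
    (h0 : 0 < tot (x1 * y1) (x2 * y2) (x3 * y3)) (h1 : 0 < tot (x1 * y2) (x2 * y3) (x3 * y1))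
    (h2 : 0 < tot (x1 * y3) (x2 * y1) (x3 * y2))
    (h : 0 ≤ gaPoly rc x1 x2 x3 y1 y2 y3) : GA6 x1 x2 x3 y1 y2 y3 := by
  simp only [GA6, mA, mS, mE]
  simp only [gaPoly] at h
  generalize tot x1 x2 x3 = S at *
  generalize tot y1 y2 y3 = R at *
  generalize tot (x1 * y1) (x2 * y2) (x3 * y3) = s0 at *
  generalize tot (x1 * y2) (x2 * y3) (x3 * y1) = s1 at *
  generalize tot (x1 * y3) (x2 * y1) (x3 * y2) = s2 at *
  generalize quad rc x1 x2 x3 = a at *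
  generalize quad rc y1 y2 y3 = b at *
  generalize quad rc (x1 * y1) (x2 * y2) (x3 * y3) = q0 at *
  generalize quad rc (x1 * y2) (x2 * y3) (x3 * y1) = q1 at *
  generalize quad rc (x1 * y3) (x2 * y1) (x3 * y2) = q2 at *
  generalize inv500 rc x1 x2 x3 = f at *
  rw [← sub_nonneg]
  have e : a / S * R + S * (b / R) - a / S * (b / R) / 256
      - 11 / 5 * (b / R) * (f / (500 * S ^ 3))
      - (q0 / s0 + q1 / s1 + q2 / s2)
    = ((rc 640000 * a * (S * S) * (R * R * R * R) + rc 640000 * (S * S * S * S) * b * (R * R)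
        + rc (-2500) * a * (S * S) * b * (R * R)
        + rc (-2816) * b * (R * R) * f) * (s0 * s1 * s2)
      + rc (-640000) * (q0 * (s1 * s2) + q1 * (s0 * s2) + q2 * (s0 * s1))
        * (S * R * (S * R) * (S * R))) / (640000 * (S * R) ^ 3 * (s0 * s1 * s2)) := by
    simp only [rc]; push_cast; field_simp; ring
  rw [e]
  exact div_nonneg h (by positivity)

lemma haPoly_eq {x1 x2 x3 y1 y2 y3 : ℝ} (hS : 0 < tot x1 x2 x3) (hR : 0 < tot y1 y2 y3)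
    (h0 : 0 < tot (x1 * y1) (x2 * y2) (x3 * y3)) (h1 : 0 < tot (x1 * y2) (x2 * y3) (x3 * y1))
    (h2 : 0 < tot (x1 * y3) (x2 * y1) (x3 * y2))
    (h : 0 ≤ haPoly rc x1 x2 x3 y1 y2 y3) : HA6 x1 x2 x3 y1 y2 y3 := by
  simp only [HA6, mP, mE]
  simp only [haPoly] at h
  generalize tot x1 x2 x3 = S at *
  generalize tot y1 y2 y3 = R at *
  generalize tot (x1 * y1) (x2 * y2) (x3 * y3) = s0 at *
  generalize tot (x1 * y2) (x2 * y3) (x3 * y1) = s1 at *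
  generalize tot (x1 * y3) (x2 * y1) (x3 * y2) = s2 at *
  generalize inv500 rc (x1 * y1) (x2 * y2) (x3 * y3) = q0 at *
  generalize inv500 rc (x1 * y2) (x2 * y3) (x3 * y1) = q1 at *
  generalize inv500 rc (x1 * y3) (x2 * y1) (x3 * y2) = q2 at *
  generalize inv500 rc x1 x2 x3 = f at *
  generalize phi rc y1 y2 y3 = v at *
  rw [← sub_nonneg]
  have e : q0 / (500 * s0 ^ 3) + q1 / (500 * s1 ^ 3) + q2 / (500 * s2 ^ 3)
      - v / R ^ 2 * (f / (500 * S ^ 3))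
    = (dif rc ((q0 * (s1 * s2 * (s1 * s2) * (s1 * s2)) + q1 * (s0 * s2 * (s0 * s2) * (s0 * s2))
          + q2 * (s0 * s1 * (s0 * s1) * (s0 * s1))) * (S * R * (S * R) * (S * R)))
        (s0 * s1 * s2 * (s0 * s1 * s2) * (s0 * s1 * s2) * (v * R * f)))
      / (500 * (S * R) ^ 3 * (s0 * s1 * s2) ^ 3) := by
    simp only [dif, rc]; push_cast; field_simp; ring
  rw [e]
  exact div_nonneg h (by positivity)

/-- The inequality guarded by membership of the second vector. -/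
def Guard (P : ℝ → ℝ → ℝ → ℝ → ℝ → ℝ → Prop) (x1 x2 x3 y1 y2 y3 : ℝ) : Prop :=
  Near y1 y2 y3 → P x1 x2 x3 y1 y2 y3

lemma near_rot {p q r : ℝ} (h : Near p q r) : Near q r p := by
  obtain ⟨a, b, c⟩ := h
  have := tot_rot p q r
  exact ⟨by linarith, by linarith, by linarith⟩

lemma near_swap {p q r : ℝ} (h : Near p q r) : Near p r q := by
  obtain ⟨a, b, c⟩ := h
  have := tot_swap p q r
  exact ⟨by linarith, by linarith, by linarith⟩

lemma ga6_shift {x1 x2 x3 y1 y2 y3 : ℝ} (h : GA6 x1 x2 x3 y2 y3 y1) :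
    GA6 x1 x2 x3 y1 y2 y3 := by
  simp only [GA6, mS_rot y1 y2 y3, mA_rot y1 y2 y3] at h ⊢
  linarith

lemma ga6_rot {x1 x2 x3 y1 y2 y3 : ℝ} (h : GA6 x2 x3 x1 y2 y3 y1) :
    GA6 x1 x2 x3 y1 y2 y3 := by
  simp only [GA6, mS_rot y1 y2 y3, mA_rot y1 y2 y3, mS_rot x1 x2 x3, mA_rot x1 x2 x3,
    mE_rot x1 x2 x3, mA_rot (x1 * y1) (x2 * y2) (x3 * y3), mA_rot (x1 * y2) (x2 * y3) (x3 * y1),
    mA_rot (x1 * y3) (x2 * y1) (x3 * y2)] at h ⊢
  linarith

lemma ga6_swap {x1 x2 x3 y1 y2 y3 : ℝ} (h : GA6 x1 x3 x2 y1 y3 y2) :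
    GA6 x1 x2 x3 y1 y2 y3 := by
  simp only [GA6, mS_swap y1 y2 y3, mA_swap y1 y2 y3, mS_swap x1 x2 x3, mA_swap x1 x2 x3,
    mE_swap x1 x2 x3, mA_swap (x1 * y1) (x2 * y2) (x3 * y3),
    mA_swap (x1 * y2) (x2 * y3) (x3 * y1), mA_swap (x1 * y3) (x2 * y1) (x3 * y2)] at h ⊢
  linarith

lemma ha6_shift {x1 x2 x3 y1 y2 y3 : ℝ} (h : HA6 x1 x2 x3 y2 y3 y1) :
    HA6 x1 x2 x3 y1 y2 y3 := by
  simp only [HA6, mP_rot y1 y2 y3] at h ⊢
  linarith

lemma ha6_rot {x1 x2 x3 y1 y2 y3 : ℝ} (h : HA6 x2 x3 x1 y2 y3 y1) :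
    HA6 x1 x2 x3 y1 y2 y3 := by
  simp only [HA6, mP_rot y1 y2 y3, mE_rot x1 x2 x3,
    mE_rot (x1 * y1) (x2 * y2) (x3 * y3), mE_rot (x1 * y2) (x2 * y3) (x3 * y1),
    mE_rot (x1 * y3) (x2 * y1) (x3 * y2)] at h ⊢
  linarith

lemma ha6_swap {x1 x2 x3 y1 y2 y3 : ℝ} (h : HA6 x1 x3 x2 y1 y3 y2) :
    HA6 x1 x2 x3 y1 y2 y3 := by
  simp only [HA6, mP_swap y1 y2 y3, mE_swap x1 x2 x3,
    mE_swap (x1 * y1) (x2 * y2) (x3 * y3), mE_swap (x1 * y2) (x2 * y3) (x3 * y1),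
    mE_swap (x1 * y3) (x2 * y1) (x3 * y2)] at h ⊢
  linarith

lemma onCones_S (F : ℝ → ℝ → ℝ → ℝ → ℝ → ℝ → ℝ) (x1 x2 x3 y1 y2 y3 : ℝ) :
    onCones rc F coneD coneS (x1 - x2) (x2 - x3) x3 ((y1 - y2) / 297) ((y2 - y3) / 594)
      ((599 * tot y1 y2 y3 - 1500 * y1) / 297)
      = F x1 x2 x3 y1 y2 y3 := by
  simp only [onCones, combo, rc, tot]; push_cast; ring_nf

lemma onCones_T (F : ℝ → ℝ → ℝ → ℝ → ℝ → ℝ → ℝ) (x1 x2 x3 y1 y2 y3 : ℝ) :
    onCones rc F coneD coneT (x1 - x2) (x2 - x3) x3 ((y1 - y3) / 297) ((y3 - y2) / 594)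
      ((599 * tot y1 y2 y3 - 1500 * y1) / 297)
      = F x1 x2 x3 y1 y2 y3 := by
  simp only [onCones, combo, rc, tot]; push_cast; ring_nf

lemma from_near (F : ℝ → ℝ → ℝ → ℝ → ℝ → ℝ → ℝ) (hd : NN F coneD coneS) (hr : NN F coneD coneT)
    (x1 x2 x3 y1 y2 y3 : ℝ) (a : 0 < x3) (b : x3 ≤ x2) (c : x2 ≤ x1)
    (g : y2 ≤ y1) (g' : y3 ≤ y1) (hn : Near y1 y2 y3) : 0 ≤ F x1 x2 x3 y1 y2 y3 := by
  have ht : 0 ≤ (599 * tot y1 y2 y3 - 1500 * y1) / 297 :=
    div_nonneg (by linarith [hn.1]) (by norm_num)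
  rcases le_total y3 y2 with h | h
  · rw [← onCones_S F]
    exact hd _ _ _ _ _ _ (by linarith) (by linarith) a.le (div_nonneg (by linarith) (by norm_num))
      (div_nonneg (by linarith) (by norm_num)) ht
  · rw [← onCones_T F]
    exact hr _ _ _ _ _ _ (by linarith) (by linarith) a.le (div_nonneg (by linarith) (by norm_num))
      (div_nonneg (by linarith) (by norm_num)) ht

lemma ga6_pos : ∀ x1 x2 x3 y1 y2 y3 : ℝ, 0 < x1 → 0 < x2 → 0 < x3 → 0 < y1 → 0 < y2 → 0 < y3 →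
    Guard GA6 x1 x2 x3 y1 y2 y3 :=
  of_sorted (Guard GA6) (fun _ _ _ _ _ _ h hn => ga6_shift (h (near_rot hn)))
    (fun _ _ _ _ _ _ h hn => ga6_rot (h (near_rot hn)))
    (fun _ _ _ _ _ _ h hn => ga6_swap (h (near_swap hn)))
    (fun x1 x2 x3 y1 y2 y3 a b c d e f g g' hn => by
      have h1 : 0 < x1 := by linarith
      have h2 : 0 < x2 := by linarith
      refine gaPoly_eq ?_ ?_ ?_ ?_ ?_ (from_near _ ga_s ga_t _ _ _ _ _ _ a b c g g' hn) <;>
        (simp only [tot]; positivity))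

lemma ha6_pos : ∀ x1 x2 x3 y1 y2 y3 : ℝ, 0 < x1 → 0 < x2 → 0 < x3 → 0 < y1 → 0 < y2 → 0 < y3 →
    Guard HA6 x1 x2 x3 y1 y2 y3 :=
  of_sorted (Guard HA6) (fun _ _ _ _ _ _ h hn => ha6_shift (h (near_rot hn)))
    (fun _ _ _ _ _ _ h hn => ha6_rot (h (near_rot hn)))
    (fun _ _ _ _ _ _ h hn => ha6_swap (h (near_swap hn)))
    (fun x1 x2 x3 y1 y2 y3 a b c d e f g g' hn => by
      have h1 : 0 < x1 := by linarith
      have h2 : 0 < x2 := by linarith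
      refine haPoly_eq ?_ ?_ ?_ ?_ ?_ (from_near _ ha_s ha_t _ _ _ _ _ _ a b c g g' hn) <;>
        (simp only [tot]; positivity))

lemma tendsto_mE (f1 f2 f3 : ℝ → ℝ) (c1 : Continuous f1) (c2 : Continuous f2) (c3 : Continuous f3)
    (n1 : ∀ e, 0 ≤ e → 0 ≤ f1 e) (n2 : ∀ e, 0 ≤ e → 0 ≤ f2 e) (n3 : ∀ e, 0 ≤ e → 0 ≤ f3 e) :
    Tendsto (fun e => mE (f1 e) (f2 e) (f3 e)) (𝓝[>] (0 : ℝ)) (𝓝 (mE (f1 0) (f2 0) (f3 0))) :=
  tendsto_moment mE 8 (fun p q r hp hq hr => abs_mE_le hp hq hr)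
    (fun g1 g2 g3 d1 d2 d3 h => by
      refine ContinuousAt.div ?_ ?_ (mul_ne_zero (by norm_num) (pow_ne_zero 3 h)) <;>
        (simp only [inv500, cub, quad, tot, dif]; fun_prop))
    f1 f2 f3 c1 c2 c3 n1 n2 n3

lemma near_add {p q r : ℝ} (h : Near p q r) {t : ℝ} (ht : 0 ≤ t) :
    Near (p + t) (q + t) (r + t) := by
  obtain ⟨a, b, c⟩ := h
  simp only [tot] at a b c
  refine ⟨?_, ?_, ?_⟩ <;> simp only [tot] <;> linarith

theorem ga6_all {x1 x2 x3 y1 y2 y3 : ℝ} (a : 0 ≤ x1) (b : 0 ≤ x2) (c : 0 ≤ x3)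
    (d : 0 ≤ y1) (e : 0 ≤ y2) (f : 0 ≤ y3) (hn : Near y1 y2 y3) : GA6 x1 x2 x3 y1 y2 y3 := by
  have sh : ∀ {z : ℝ}, 0 ≤ z → ∀ t : ℝ, 0 ≤ t → 0 ≤ z + t := fun hz t ht => add_nonneg hz ht
  have pr : ∀ {z w : ℝ}, 0 ≤ z → 0 ≤ w → ∀ t : ℝ, 0 ≤ t → 0 ≤ (z + t) * (w + t) :=
    fun hz hw t ht => mul_nonneg (add_nonneg hz ht) (add_nonneg hw ht)
  have l0 := tendsto_mA (fun t => (x1 + t) * (y1 + t)) (fun t => (x2 + t) * (y2 + t))
    (fun t => (x3 + t) * (y3 + t)) (by fun_prop) (by fun_prop) (by fun_prop)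
    (pr a d) (pr b e) (pr c f)
  have l1 := tendsto_mA (fun t => (x1 + t) * (y2 + t)) (fun t => (x2 + t) * (y3 + t))
    (fun t => (x3 + t) * (y1 + t)) (by fun_prop) (by fun_prop) (by fun_prop)
    (pr a e) (pr b f) (pr c d)
  have l2 := tendsto_mA (fun t => (x1 + t) * (y3 + t)) (fun t => (x2 + t) * (y1 + t))
    (fun t => (x3 + t) * (y2 + t)) (by fun_prop) (by fun_prop) (by fun_prop)
    (pr a f) (pr b d) (pr c e)
  have ax := tendsto_mA (x1 + ·) (x2 + ·) (x3 + ·) (by fun_prop) (by fun_prop) (by fun_prop)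
    (sh a) (sh b) (sh c)
  have ay := tendsto_mA (y1 + ·) (y2 + ·) (y3 + ·) (by fun_prop) (by fun_prop) (by fun_prop)
    (sh d) (sh e) (sh f)
  have sx := tendsto_mS (x1 + ·) (x2 + ·) (x3 + ·) (by fun_prop) (by fun_prop) (by fun_prop)
    (sh a) (sh b) (sh c)
  have sy := tendsto_mS (y1 + ·) (y2 + ·) (y3 + ·) (by fun_prop) (by fun_prop) (by fun_prop)
    (sh d) (sh e) (sh f)
  have fx := tendsto_mE (x1 + ·) (x2 + ·) (x3 + ·) (by fun_prop) (by fun_prop) (by fun_prop)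
    (sh a) (sh b) (sh c)
  have key := le_of_tendsto_of_tendsto ((l0.add l1).add l2)
    ((((ax.mul sy).add (sx.mul ay)).sub ((ax.mul ay).div_const 256)).sub
      ((ay.const_mul (11 / 5)).mul fx)) (by
      filter_upwards [self_mem_nhdsWithin] with t ht
      have ht' : (0 : ℝ) < t := ht
      exact ga6_pos _ _ _ _ _ _ (by linarith) (by linarith) (by linarith) (by linarith)
        (by linarith) (by linarith) (near_add hn ht'.le))
  simpa [GA6] using key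

theorem ha6_all {x1 x2 x3 y1 y2 y3 : ℝ} (a : 0 ≤ x1) (b : 0 ≤ x2) (c : 0 ≤ x3)
    (d : 0 ≤ y1) (e : 0 ≤ y2) (f : 0 ≤ y3) (hn : Near y1 y2 y3) : HA6 x1 x2 x3 y1 y2 y3 := by
  have sh : ∀ {z : ℝ}, 0 ≤ z → ∀ t : ℝ, 0 ≤ t → 0 ≤ z + t := fun hz t ht => add_nonneg hz ht
  have pr : ∀ {z w : ℝ}, 0 ≤ z → 0 ≤ w → ∀ t : ℝ, 0 ≤ t → 0 ≤ (z + t) * (w + t) :=
    fun hz hw t ht => mul_nonneg (add_nonneg hz ht) (add_nonneg hw ht)
  have l0 := tendsto_mE (fun t => (x1 + t) * (y1 + t)) (fun t => (x2 + t) * (y2 + t))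
    (fun t => (x3 + t) * (y3 + t)) (by fun_prop) (by fun_prop) (by fun_prop)
    (pr a d) (pr b e) (pr c f)
  have l1 := tendsto_mE (fun t => (x1 + t) * (y2 + t)) (fun t => (x2 + t) * (y3 + t))
    (fun t => (x3 + t) * (y1 + t)) (by fun_prop) (by fun_prop) (by fun_prop)
    (pr a e) (pr b f) (pr c d)
  have l2 := tendsto_mE (fun t => (x1 + t) * (y3 + t)) (fun t => (x2 + t) * (y1 + t))
    (fun t => (x3 + t) * (y2 + t)) (by fun_prop) (by fun_prop) (by fun_prop)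
    (pr a f) (pr b d) (pr c e)
  have py := tendsto_mP (y1 + ·) (y2 + ·) (y3 + ·) (by fun_prop) (by fun_prop) (by fun_prop)
    (sh d) (sh e) (sh f)
  have fx := tendsto_mE (x1 + ·) (x2 + ·) (x3 + ·) (by fun_prop) (by fun_prop) (by fun_prop)
    (sh a) (sh b) (sh c)
  have key := le_of_tendsto_of_tendsto (py.mul fx) ((l0.add l1).add l2) (by
      filter_upwards [self_mem_nhdsWithin] with t ht
      have ht' : (0 : ℝ) < t := ht
      exact ha6_pos _ _ _ _ _ _ (by linarith) (by linarith) (by linarith) (by linarith)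
        (by linarith) (by linarith) (near_add hn ht'.le))
  simpa [HA6] using key

end Vale.Agent.P154
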