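import Vale.Agent.P154.Tree
import Mathlib.Analysis.SpecialFunctions.Exponential

/-!
Reconstruction above the Kesten-Stigum threshold through the census of the leaves, and the
regular and Poisson offspring laws.
-/

namespace Vale.Agent.P154

variable {ι : Type}

/-- The census weight of a spin. -/
noncomputable def wt : Fin 3 → ℝ := ![1, -1 / 2, -1 / 2]

/-- The census of the leaves. -/
noncomputable def census : (n : ℕ) → Obs n → ℝ
  | 0 => fun (s : Fin 3) => wt s
  | n + 1 => fun (cs : List (Obs n)) => (cs.map (census n)).sum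

lemma abs_mul_le_sq {w g : ℝ} (hw : 0 ≤ w) : |w * g| ≤ w + w * g ^ 2 := by
  rw [abs_mul, abs_of_nonneg hw, ← mul_one_add]
  refine mul_le_mul_of_nonneg_left ?_ hw
  nlinarith [sq_nonneg (|g| - 1), sq_abs g, abs_nonneg g]

lemma hasSum_cons {N : ℕ} (f : ι → ℝ) (g : (Fin N → ι) → ℝ) (F : (Fin (N + 1) → ι) → ℝ)
    {a b : ℝ} (hf : HasSum f a) (hg : HasSum g b)
    (hF : ∀ x y, F (Fin.cons x y) = f x * g y) : HasSum F (a * b) := by
  have hs : Summable fun z : ι × (Fin N → ι) => f z.1 * g z.2 :=
    summable_mul_of_summable_norm hf.summable.abs hg.summable.abs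
  have h := hf.mul hg hs
  refine (Equiv.hasSum_iff (Fin.consEquiv fun _ : Fin (N + 1) => ι)).mp (h.congr_fun fun z => ?_)
  exact hF z.1 z.2

lemma hasSum_pow (w : ι → ℝ) (g : ι → ℝ) (m s : ℝ) (h0 : HasSum w 1)
    (h1 : HasSum (fun x => w x * g x) m) (h2 : HasSum (fun x => w x * g x ^ 2) s) (N : ℕ) :
    HasSum (fun x : Fin N → ι => ∏ j, w (x j)) (1 : ℝ)
      ∧ HasSum (fun x : Fin N → ι => (∏ j, w (x j)) * ∑ j, g (x j)) ((N : ℝ) * m)
      ∧ HasSum (fun x : Fin N → ι => (∏ j, w (x j)) * (∑ j, g (x j)) ^ 2)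
          ((N : ℝ) * s + ((N : ℝ) * ((N : ℝ) - 1)) * m ^ 2) := by
  induction N with
  | zero =>
      have key : ∀ f : (Fin 0 → ι) → ℝ, HasSum f (f Fin.elim0) := fun f =>
        hasSum_single Fin.elim0 (fun x hx => absurd (Subsingleton.elim x Fin.elim0) hx)
      refine ⟨?_, ?_, ?_⟩
      · exact hasSum_val (key _) (by simp)
      · exact hasSum_val (key _) (by simp)
      · exact hasSum_val (key _) (by simp)
  | succ N ih =>
      obtain ⟨i0, i1, i2⟩ := ih
      have q0 := hasSum_cons w _ (fun x : Fin (N + 1) → ι => ∏ j, w (x j)) h0 i0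
        (fun x y => by simp [Fin.prod_univ_succ])
      have qa := hasSum_cons (fun x => w x * g x) _
        (fun x : Fin (N + 1) → ι => (∏ j, w (x j)) * g (x 0)) h1 i0
        (fun x y => by simp [Fin.prod_univ_succ]; ring)
      have qb := hasSum_cons w _
        (fun x : Fin (N + 1) → ι => (∏ j, w (x j)) * ∑ j : Fin N, g (x j.succ)) h0 i1
        (fun x y => by simp [Fin.prod_univ_succ]; ring)
      have qc := hasSum_cons (fun x => w x * g x ^ 2) _
        (fun x : Fin (N + 1) → ι => (∏ j, w (x j)) * g (x 0) ^ 2) h2 i0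
        (fun x y => by simp [Fin.prod_univ_succ]; ring)
      have qd := hasSum_cons (fun x => w x * g x) _
        (fun x : Fin (N + 1) → ι => (∏ j, w (x j)) * (g (x 0) * ∑ j : Fin N, g (x j.succ))) h1 i1
        (fun x y => by simp [Fin.prod_univ_succ]; ring)
      have qe := hasSum_cons w _
        (fun x : Fin (N + 1) → ι => (∏ j, w (x j)) * (∑ j : Fin N, g (x j.succ)) ^ 2) h0 i2
        (fun x y => by simp [Fin.prod_univ_succ]; ring)
      refine ⟨hasSum_val q0 (one_mul 1), ?_, ?_⟩
      · refine hasSum_val ((qa.add qb).congr_fun fun x => ?_) (by push_cast; ring)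
        rw [Fin.sum_univ_succ]; ring
      · refine hasSum_val (((qc.add (qd.mul_left 2)).add qe).congr_fun fun x => ?_)
          (by push_cast; ring)
        rw [Fin.sum_univ_succ]; ring

/-- First two moments of the census, given the root spin. -/
lemma census_moments {p : ℕ → ℝ} {d l : ℝ} {m2 : ℝ} (hp : Law p d) (h0 : 0 ≤ l) (h1 : l ≤ 1)
    (hm : HasSum (fun N : ℕ => (N : ℝ) * ((N : ℝ) - 1) * p N) m2)
    {C : ℝ} (hC1 : 1 ≤ C) (hC : C * d + m2 * l ^ 2 ≤ C * (d * l) ^ 2) :
    ∀ n i, HasSum (fun η : Obs n => lik p l n i η * census n η) ((d * l) ^ n * wt i)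
      ∧ ∃ v, v ≤ C * ((d * l) ^ n) ^ 2
        ∧ HasSum (fun η : Obs n => lik p l n i η * census n η ^ 2) v
  | 0, i => by
      have key : ∀ f : Fin 3 → ℝ, HasSum (fun s : Fin 3 => (if s = i then (1 : ℝ) else 0) * f s)
          (f i) := fun f => by
        simpa using hasSum_single i
          (fun s hs => by simp [hs] : ∀ s : Fin 3, s ≠ i →
            (if s = i then (1 : ℝ) else 0) * f s = 0)
      refine ⟨hasSum_val (key wt) (by simp), wt i ^ 2, ?_, key fun s => wt s ^ 2⟩
      have : wt i ^ 2 ≤ 1 := by fin_cases i <;> norm_num [wt]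
      simpa using le_trans this hC1
  | n + 1, i => by
      have ih := census_moments hp h0 h1 hm hC1 hC n
      choose v hv hv' using fun j => (ih j).2
      obtain ⟨hk, -⟩ := tab_spec hp h0 h1 n
      have hs := shift_ok h0 h1 hk
      have w1 : HasSum (fun c : Obs n => shift l (tab p l n) c i * census n c)
          (l * (d * l) ^ n * wt i) := by
        have := hasSum_sum (s := (Finset.univ : Finset (Fin 3)))
          fun j _ => (ih j).1.mul_left (potts l i j)
        refine hasSum_val (this.congr_fun fun c => ?_) ?_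
        · simp [shift, tab, Finset.sum_mul, mul_assoc]
        · simp only [Fin.sum_univ_three]
          fin_cases i <;> simp [potts, wt] <;> ring
      have w2 : HasSum (fun c : Obs n => shift l (tab p l n) c i * census n c ^ 2)
          (∑ j, potts l i j * v j) := by
        have := hasSum_sum (s := (Finset.univ : Finset (Fin 3)))
          fun j _ => (hv' j).mul_left (potts l i j)
        refine this.congr_fun fun c => ?_
        simp [shift, tab, Finset.sum_mul, mul_assoc]
      have hK : ∀ j, 0 ≤ potts l i j := fun j => by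
        simp only [potts]; split_ifs <;> linarith
      have hsum : ∑ j, potts l i j = 1 := by
        simp only [Fin.sum_univ_three]
        fin_cases i <;> simp [potts] <;> ring
      have hvb : ∑ j, potts l i j * v j ≤ C * ((d * l) ^ n) ^ 2 := by
        calc ∑ j, potts l i j * v j ≤ ∑ j, potts l i j * (C * ((d * l) ^ n) ^ 2) :=
              Finset.sum_le_sum fun j _ => mul_le_mul_of_nonneg_left (hv j) (hK j)
          _ = C * ((d * l) ^ n) ^ 2 := by rw [← Finset.sum_mul, hsum, one_mul]
      have hN := hasSum_pow (fun c => shift l (tab p l n) c i) (census n) _ _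
        (hs.total i) w1 w2
      -- the sigma type of offspring tuples
      have f1 : ∀ N, HasSum (fun x : Fin N → Obs n =>
          p N * ((∏ j, shift l (tab p l n) (x j) i) * ∑ j, census n (x j)))
          (p N * ((N : ℝ) * (l * (d * l) ^ n * wt i))) := fun N => (hN N).2.1.mul_left _
      have f2 : ∀ N, HasSum (fun x : Fin N → Obs n =>
          p N * ((∏ j, shift l (tab p l n) (x j) i) * (∑ j, census n (x j)) ^ 2))
          (p N * ((N : ℝ) * (∑ j, potts l i j * v j)
            + ((N : ℝ) * ((N : ℝ) - 1)) * (l * (d * l) ^ n * wt i) ^ 2)) :=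
        fun N => (hN N).2.2.mul_left _
      have o2 : HasSum (fun N : ℕ => p N * ((N : ℝ) * (∑ j, potts l i j * v j)
            + ((N : ℝ) * ((N : ℝ) - 1)) * (l * (d * l) ^ n * wt i) ^ 2))
          (d * (∑ j, potts l i j * v j) + m2 * (l * (d * l) ^ n * wt i) ^ 2) :=
        ((hp.mean.mul_right _).add (hm.mul_right _)).congr_fun fun N => by ring
      have hnn : ∀ s : Σ N, Fin N → Obs n, 0 ≤ p s.1 * ∏ j, shift l (tab p l n) (s.2 j) i :=
        fun s => mul_nonneg (hp.nonneg _) (Finset.prod_nonneg fun j _ => hs.nonneg _ _)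
      have s2 : Summable fun s : Σ N, Fin N → Obs n =>
          p s.1 * ((∏ j, shift l (tab p l n) (s.2 j) i) * (∑ j, census n (s.2 j)) ^ 2) :=
        (summable_sigma_of_nonneg fun s => by
          rw [← mul_assoc]; exact mul_nonneg (hnn s) (sq_nonneg _)).mpr
          ⟨fun N => (f2 N).summable, o2.summable.congr fun N => (f2 N).tsum_eq.symm⟩
      have s1 : Summable fun s : Σ N, Fin N → Obs n =>
          p s.1 * ((∏ j, shift l (tab p l n) (s.2 j) i) * ∑ j, census n (s.2 j)) := by
        refine Summable.of_norm_bounded ((((mix_ok hp hs).total i).summable).add s2) fun s => ?_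
        rw [Real.norm_eq_abs, ← mul_assoc, ← mul_assoc]
        exact abs_mul_le_sq (hnn s)
      have t1 : HasSum (fun s : Σ N, Fin N → Obs n =>
          p s.1 * ((∏ j, shift l (tab p l n) (s.2 j) i) * ∑ j, census n (s.2 j)))
          ((d * l) ^ (n + 1) * wt i) :=
        hasSum_val (HasSum.sigma_of_hasSum
          ((hp.mean.mul_right (l * (d * l) ^ n * wt i)).congr_fun fun N => by ring) f1 s1)
          (by ring)
      have t2 := HasSum.sigma_of_hasSum o2 f2 s2
      have link : ∀ cs : List (Obs n), ∀ (F : ℝ → ℝ),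
          lik p l (n + 1) i cs * F (census (n + 1) cs)
          = p (List.equivSigmaTuple cs).1 *
            ((∏ j, shift l (tab p l n) ((List.equivSigmaTuple cs).2 j) i) *
              F (∑ j, census n ((List.equivSigmaTuple cs).2 j))) := by
        intro cs F
        rw [← mul_assoc]
        change (p cs.length * (cs.map fun c => ∑ j, potts l i j * lik p l n j c).prod)
            * F ((cs.map (census n)).sum)
          = p cs.length * (∏ k : Fin cs.length, shift l (tab p l n) (cs.get k) i)
            * F (∑ k : Fin cs.length, census n (cs.get k))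
        congr 1
        · congr 1
          conv_lhs => rw [← List.ofFn_get cs, List.map_ofFn, List.prod_ofFn]
          rfl
        · congr 1
          conv_lhs => rw [← List.ofFn_get cs, List.map_ofFn, List.sum_ofFn]
          rfl
      refine ⟨((Equiv.hasSum_iff List.equivSigmaTuple).mpr t1).congr_fun
          fun cs => link cs fun z => z, _, ?_,
        ((Equiv.hasSum_iff List.equivSigmaTuple).mpr t2).congr_fun fun cs => link cs fun z => z ^ 2⟩
      have hd0 : 0 ≤ d := hp.mean.nonneg fun N => mul_nonneg (Nat.cast_nonneg N) (hp.nonneg N)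
      have hm0 : 0 ≤ m2 := hm.nonneg fun N => by
        rcases N with _ | N
        · simp
        · have h := hp.nonneg (N + 1)
          push_cast
          exact mul_nonneg (mul_nonneg (by positivity) (by simp)) h
      have hw : wt i ^ 2 ≤ 1 := by fin_cases i <;> norm_num [wt]
      have a1 : d * (∑ j, potts l i j * v j) ≤ d * (C * ((d * l) ^ n) ^ 2) :=
        mul_le_mul_of_nonneg_left hvb hd0
      have a2 : m2 * (l * (d * l) ^ n * wt i) ^ 2 ≤ m2 * l ^ 2 * ((d * l) ^ n) ^ 2 := by
        calc m2 * (l * (d * l) ^ n * wt i) ^ 2 = m2 * l ^ 2 * ((d * l) ^ n) ^ 2 * wt i ^ 2 := by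
              ring
          _ ≤ m2 * l ^ 2 * ((d * l) ^ n) ^ 2 * 1 :=
              mul_le_mul_of_nonneg_left hw (by positivity)
          _ = m2 * l ^ 2 * ((d * l) ^ n) ^ 2 := mul_one _
      have a3 := mul_le_mul_of_nonneg_right hC (sq_nonneg ((d * l) ^ n))
      have a4 : C * ((d * l) ^ (n + 1)) ^ 2 = C * (d * l) ^ 2 * ((d * l) ^ n) ^ 2 := by ring
      rw [a4]; linarith

theorem reconstruction_of_gt {p : ℕ → ℝ} {d l : ℝ} {m2 : ℝ} (hp : Law p d) (h0 : 0 ≤ l)
    (h1 : l ≤ 1) (hm : HasSum (fun N : ℕ => (N : ℝ) * ((N : ℝ) - 1) * p N) m2)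
    (hd : 1 < d * l ^ 2) : Reconstruction p l := by
  have hd0 : 0 < d := by
    rcases lt_trichotomy d 0 with h | h | h
    · nlinarith [sq_nonneg l]
    · subst h; linarith
    · exact h
  have hl : 0 < l := by
    rcases eq_or_lt_of_le h0 with h | h
    · subst h; norm_num at hd
    · exact h
  have hgap : 0 < d * (d * l ^ 2 - 1) := mul_pos hd0 (by linarith)
  set C : ℝ := max 1 (m2 * l ^ 2 / (d * (d * l ^ 2 - 1))) with hCdef
  have hC1 : 1 ≤ C := le_max_left _ _
  have hC : C * d + m2 * l ^ 2 ≤ C * (d * l) ^ 2 := by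
    have h2 : m2 * l ^ 2 / (d * (d * l ^ 2 - 1)) ≤ C := le_max_right _ _
    rw [div_le_iff₀ hgap] at h2
    linarith
  refine ⟨1 / (12 * C), by positivity, fun n => ?_⟩
  obtain ⟨hk, -⟩ := tab_spec hp h0 h1 n
  have mom := census_moments hp h0 h1 hm hC1 hC n
  choose v hv hv' using fun j => (mom j).2
  set r := (d * l) ^ n with hr
  have hrpos : 0 < r := by positivity
  set t : ℝ := C * r with ht
  have htpos : 0 < t := by positivity
  have hl' := ((mom 0).1.add ((mom 1).1.mul_left (-1 / 2))).add ((mom 2).1.mul_left (-1 / 2))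
  have hr' := ((hk.summable_mom dom_mA).hasSum.mul_left t).add
    ((((hv' 0).add (hv' 1)).add (hv' 2)).mul_left (1 / (4 * t)))
  have key := hasSum_le (fun η : Obs n => ?_) hl' hr'
  · have hi : info p l n = (∑' η, row mA (tab p l n η)) / 3 := rfl
    have ha := info_le_advantage hk
    have hw : r * wt 0 + -1 / 2 * (r * wt 1) + -1 / 2 * (r * wt 2) = 3 / 2 * r := by
      simp [wt]; ring
    rw [hw] at key
    have hvs : 1 / (4 * t) * (v 0 + v 1 + v 2) ≤ 3 / 4 * r := by
      rw [one_div_mul_eq_div, div_le_iff₀ (by positivity), ht]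
      linarith [hv 0, hv 1, hv 2]
    have h3 : 3 / 4 * r ≤ t * (3 * info p l n) := by rw [hi]; linarith
    have h4 : 3 / 4 * r ≤ (9 * C * advantage p l n) * r := by
      have := mul_le_mul_of_nonneg_left (mul_le_mul_of_nonneg_left ha (by norm_num : (0:ℝ) ≤ 3))
        htpos.le
      rw [ht] at this h3
      linarith
    have h5 := le_of_mul_le_mul_right h4 hrpos
    rw [div_le_iff₀ (by positivity)]
    linarith
  · simp only [row, mA, Pi.add_apply]
    set a := lik p l n 0 η
    set b := lik p l n 1 η
    set c := lik p l n 2 η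
    set g := census n η
    have e : tab p l n η 0 = a ∧ tab p l n η 1 = b ∧ tab p l n η 2 = c := ⟨rfl, rfl, rfl⟩
    rw [e.1, e.2.1, e.2.2]
    have ha : 0 ≤ a := hk.nonneg η 0
    have hb : 0 ≤ b := hk.nonneg η 1
    have hc : 0 ≤ c := hk.nonneg η 2
    rcases eq_or_lt_of_le (tot_nonneg ha hb hc) with h | h
    · have hS : a + b + c = 0 := h.symm
      have a0 : a = 0 := by linarith
      have b0 : b = 0 := by linarith
      have c0 : c = 0 := by linarith
      rw [a0, b0, c0]; simp [tot]
    · have hS : tot a b c = a + b + c := rfl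
      have hq : (a - b / 2 - c / 2) ^ 2 ≤ quad rc a b c := by
        simp only [quad, dif]; push_cast; nlinarith [sq_nonneg (b - c)]
      have hsq : (a - b / 2 - c / 2) * g
          ≤ t * ((a - b / 2 - c / 2) ^ 2 / tot a b c) + 1 / (4 * t) * (g ^ 2 * tot a b c) := by
        have hid : t * ((a - b / 2 - c / 2) ^ 2 / tot a b c) + 1 / (4 * t) * (g ^ 2 * tot a b c)
            - (a - b / 2 - c / 2) * g
            = (2 * t * (a - b / 2 - c / 2) - g * tot a b c) ^ 2 / (4 * t * tot a b c) := by
          field_simp; ring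
        rw [← sub_nonneg, hid]; positivity
      have hmono : t * ((a - b / 2 - c / 2) ^ 2 / tot a b c) ≤ t * (quad rc a b c / tot a b c) :=
        mul_le_mul_of_nonneg_left (div_le_div_of_nonneg_right hq h.le) htpos.le
      rw [hS] at hsq hmono ⊢
      linarith

lemma regular_law (d : ℕ) : Law (regularLaw d) d where
  nonneg n := by unfold regularLaw; split_ifs <;> norm_num
  total := hasSum_ite_eq d (1 : ℝ)
  mean := by
    have := hasSum_single (f := fun n : ℕ => (n : ℝ) * regularLaw d n) d
      (fun n hn => by simp [regularLaw, hn])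
    simpa [regularLaw] using this

lemma regular_m2 (d : ℕ) :
    HasSum (fun N : ℕ => (N : ℝ) * ((N : ℝ) - 1) * regularLaw d N) ((d : ℝ) * ((d : ℝ) - 1)) := by
  have := hasSum_single (f := fun n : ℕ => (n : ℝ) * ((n : ℝ) - 1) * regularLaw d n) d
    (fun n hn => by simp [regularLaw, hn])
  simpa [regularLaw] using this

lemma branch_pos {p : ℕ → ℝ} {d : ℝ} (hp : Law p d) {n : ℕ} (hn : 2 ≤ n) (h : 0 < p n) :
    0 < branch p := by
  have := le_hasSum (branch_hasSum hp) n (fun m _ => by split_ifs <;> simp [hp.nonneg m])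
  rw [if_pos hn] at this
  linarith

lemma regular_branch {d : ℕ} (hd : 2 ≤ d) : 0 < branch (regularLaw d) :=
  branch_pos (regular_law d) hd (by simp [regularLaw])

lemma poisson_total (d : ℝ) : HasSum (poissonLaw d) 1 := by
  have h := (NormedSpace.expSeries_div_hasSum_exp d).mul_left (Real.exp (-d))
  rw [← Real.exp_eq_exp_ℝ, ← Real.exp_add, neg_add_cancel, Real.exp_zero] at h
  exact h.congr_fun fun n => by rw [poissonLaw, mul_div_assoc]

lemma poisson_step {d : ℝ} {f : ℕ → ℝ} {a : ℝ}
    (h : HasSum (fun n => f n * poissonLaw d n) a) :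
    HasSum (fun n : ℕ => (n : ℝ) * f (n - 1) * poissonLaw d n) (d * a) := by
  refine (hasSum_nat_add_iff' 1).mp ?_
  simp only [Finset.sum_range_one, Nat.cast_zero, zero_mul, sub_zero]
  refine (h.mul_left d).congr_fun fun n => ?_
  simp only [poissonLaw, Nat.add_sub_cancel, Nat.factorial_succ]
  push_cast
  field_simp
  ring

lemma poisson_law {d : ℝ} (hd : 0 < d) : Law (poissonLaw d) d where
  nonneg n := by simp only [poissonLaw]; positivity
  total := poisson_total d
  mean := by
    have := poisson_step (f := fun _ => 1) ((poisson_total d).congr_fun fun n => by ring)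
    simpa using this

lemma poisson_m2 {d : ℝ} (hd : 0 < d) :
    HasSum (fun N : ℕ => (N : ℝ) * ((N : ℝ) - 1) * poissonLaw d N) (d * d) := by
  have := poisson_step (poisson_law hd).mean
  refine this.congr_fun fun n => ?_
  rcases n with _ | n
  · simp
  · simp

lemma poisson_branch {d : ℝ} (hd : 0 < d) : 0 < branch (poissonLaw d) :=
  branch_pos (poisson_law hd) le_rfl (by simp only [poissonLaw]; positivity)

end Vale.Agent.P154
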