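import Vale.Agent.P154.AntiPointwise
import Vale.Agent.P154.KS

/-!
Contraction for small negative parameters, and the census bound for every admissible parameter.
-/

namespace Vale.Agent.P154

variable {ι κ : Type}

lemma dom_mE : Dom mE 8 := fun _ _ _ hp hq hr => abs_mE_le hp hq hr

lemma shift_ok_adm {l : ℝ} (h0 : -(1 / 2) ≤ l) (h1 : l ≤ 1) {L : Lik ι} (h : Ok L) :
    Ok (shift l L) where
  nonneg x i := by
    rw [shift_eq]
    have := h.nonneg x 0; have := h.nonneg x 1; have := h.nonneg x 2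
    have hi : L x i ≤ L x 0 + L x 1 + L x 2 := by fin_cases i <;> simp <;> linarith
    have hi0 := h.nonneg x i
    rcases le_total 0 l with hl | hl
    · have : 0 ≤ (1 - l) / 3 := by linarith
      positivity
    · have := mul_le_mul_of_nonpos_left hi hl
      nlinarith
  total i := by
    have := ((h.total i).mul_left l).add
      (((h.total 0).add (h.total 1)).add (h.total 2) |>.mul_left ((1 - l) / 3))
    simp only [shift_eq]
    refine hasSum_val this ?_
    ring
  rot := by
    obtain ⟨r, hr⟩ := h.rot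
    refine ⟨r, fun x i => ?_⟩
    have a0 : L (r x) 0 = L x 2 := hr x 2
    have a1 : L (r x) 1 = L x 0 := hr x 0
    have a2 : L (r x) 2 = L x 1 := hr x 1
    rw [shift_eq, shift_eq, hr, a0, a1, a2]; ring

/-- All rows lie in the shifted simplex. -/
def Close (L : Lik ι) : Prop := ∀ x, Near (L x 0) (L x 1) (L x 2)

lemma shift_close {l : ℝ} (h0 : -(99 / 500) ≤ l) (h1 : l ≤ 0) {L : Lik ι} (h : Ok L) :
    Close (shift l L) := by
  intro x
  have hS : 0 ≤ L x 0 + L x 1 + L x 2 :=
    tot_nonneg (h.nonneg x 0) (h.nonneg x 1) (h.nonneg x 2)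
  have key : ∀ i, 1500 * shift l L x i ≤ 599 * (L x 0 + L x 1 + L x 2) := fun i => by
    rw [shift_eq]
    have a := mul_nonpos_of_nonpos_of_nonneg h1 (h.nonneg x i)
    have b : (1 - l) * (L x 0 + L x 1 + L x 2) ≤ (599 / 500) * (L x 0 + L x 1 + L x 2) :=
      mul_le_mul_of_nonneg_right (by linarith) hS
    linarith
  have ht := (shift_row l L x).1
  simp only [Near, ht]
  exact ⟨key 0, key 1, key 2⟩

lemma mo_pair_comm (L : Lik ι) (M : Lik κ) (g : ℝ → ℝ → ℝ → ℝ) :
    mo g (pair L M) = mo g (pair M L) := by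
  have : pair L M = reindex (Equiv.prodComm ι κ) (pair M L) := by
    funext z i; simp [pair, reindex, mul_comm]
  rw [this, mo_reindex]

variable {A : Lik κ} {B : Lik ι}

theorem pair_info_near (hA : Ok A) (hB : Ok B) (hc : Close B) (fA : 0 ≤ mo mE A) :
    mo mA (pair B A) ≤ mo mA B + mo mA A - mo mA B * mo mA A / 256 := by
  rw [mo_pair_comm]
  have hl := pair_rots hA hB dom_mA
  have hr := (((hasSum_prod_mom hA hB dom_mA dom_mS).add
      (hasSum_prod_mom hA hB dom_mS dom_mA)).sub
      ((hasSum_prod_mom hA hB dom_mA dom_mA).div_const 256)).sub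
      ((hasSum_prod_mom hA hB dom_mE dom_mA).mul_left (11 / 5))
  have key := hasSum_le (fun z : κ × ι => ?_) hl hr
  · rw [hB.mo_mass, hA.mo_mass, mul_one, one_mul] at key
    have h1 : 0 ≤ mo mE A * mo mA B :=
      mul_nonneg fA (hB.mo_nonneg fun _ _ _ => mA_nonneg)
    linarith
  · have := ga6_all (hA.nonneg z.1 0) (hA.nonneg z.1 1) (hA.nonneg z.1 2)
      (hB.nonneg z.2 0) (hB.nonneg z.2 1) (hB.nonneg z.2 2) (hc z.2)
    simp only [GA6] at this
    simp only [rots, row]
    linarith

theorem pair_inv_near (hA : Ok A) (hB : Ok B) (hc : Close B) (fA : 0 ≤ mo mE A) :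
    0 ≤ mo mE (pair B A) := by
  rw [mo_pair_comm]
  have hr := pair_rots hA hB dom_mE
  have hl := hasSum_prod_mom hA hB dom_mE dom_mP
  have key := hasSum_le (fun z : κ × ι => ?_) hl hr
  · have h1 : 0 ≤ mo mE A * mo mP B :=
      mul_nonneg fA (hB.mo_nonneg fun _ _ _ => mP_nonneg)
    linarith
  · have := ha6_all (hA.nonneg z.1 0) (hA.nonneg z.1 1) (hA.nonneg z.1 2)
      (hB.nonneg z.2 0) (hB.nonneg z.2 1) (hB.nonneg z.2 2) (hc z.2)
    simp only [HA6] at this
    simp only [rots, row]
    linarith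

lemma power_inv_near (h : Ok B) (hc : Close B) : ∀ N, 0 ≤ mo mE (power B N)
  | 0 => by rw [power_zero_mom, mE_ones]; norm_num
  | N + 1 => by
      rw [power_succ, mo_reindex]
      exact pair_inv_near (power_ok B h N) h hc (power_inv_near h hc N)

/-- The bound on the information of `N` copies in the near regime. -/
noncomputable def gn (x : ℝ) : ℕ → ℝ
  | 0 => 0
  | N + 1 => x + (1 - x / 256) * gn x N

lemma gn_nonneg {x : ℝ} (h0 : 0 ≤ x) (h1 : x ≤ 1) : ∀ N, 0 ≤ gn x N
  | 0 => le_rfl
  | N + 1 => by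
      simp only [gn]
      have := gn_nonneg h0 h1 N
      have : 0 ≤ (1 - x / 256) * gn x N := mul_nonneg (by linarith) this
      linarith

lemma gn_le {x : ℝ} (h0 : 0 ≤ x) (h1 : x ≤ 1) :
    ∀ N : ℕ, gn x N ≤ (N : ℝ) * x - (if 2 ≤ N then x ^ 2 / 256 else 0)
  | 0 => by simp [gn]
  | 1 => by simp [gn]
  | N + 2 => by
      rw [if_pos (by omega)]
      have hN := gn_le h0 h1 (N + 1)
      have hg := gn_nonneg h0 h1 (N + 1)
      simp only [gn] at hN hg ⊢
      have e : ((N + 2 : ℕ) : ℝ) = (N : ℝ) + 2 := by push_cast; ring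
      rw [e]
      push_cast at hN
      split_ifs at hN with h
      · have hx : 0 ≤ x / 256 * (x + (1 - x / 256) * gn x N) := by positivity
        nlinarith
      · have : N = 0 := by omega
        subst this
        simp only [gn, Nat.cast_zero] at hN hg ⊢
        nlinarith

lemma power_info_near (h : Ok B) (hc : Close B) : ∀ N, mo mA (power B N) ≤ gn (mo mA B) N
  | 0 => by rw [power_zero_mom, mA_ones]; simp [gn]
  | N + 1 => by
      rw [power_succ, mo_reindex]
      have hp := pair_info_near (power_ok B h N) h hc (power_inv_near h hc N)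
      have ih := power_info_near h hc N
      have h1 : mo mA B ≤ 1 := h.mA_le_one
      have h2 : (1 - mo mA B / 256) * mo mA (power B N) ≤ (1 - mo mA B / 256) * gn (mo mA B) N :=
        mul_le_mul_of_nonneg_left ih (by linarith)
      simp only [gn]
      linarith

lemma mix_info_near {p : ℕ → ℝ} {d : ℝ} (hp : Law p d) (h : Ok B) (hc : Close B) :
    mo mA (mix p B) ≤ d * mo mA B - branch p * mo mA B ^ 2 / 256 := by
  have h0 : 0 ≤ mo mA B := h.mo_nonneg fun _ _ _ => mA_nonneg
  refine hasSum_le (fun N => ?_) (mix_mom hp h dom_mA mA_scale)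
    ((hp.mean.mul_right (mo mA B)).sub
      (((branch_hasSum hp).mul_right (mo mA B ^ 2)).div_const 256))
  have := mul_le_mul_of_nonneg_left
    (le_trans (power_info_near h hc N) (gn_le h0 h.mA_le_one N)) (hp.nonneg N)
  split_ifs with hN
  · rw [if_pos hN] at this; linarith
  · rw [if_neg hN] at this; linarith

lemma tab_ok {p : ℕ → ℝ} {d l : ℝ} (hp : Law p d) (h0 : -(1 / 2) ≤ l) (h1 : l ≤ 1) :
    ∀ n, Ok (tab p l n)
  | 0 => tab_zero_ok p l
  | n + 1 => by
      rw [tab_succ]
      exact reindex_ok _ (mix_ok hp (shift_ok_adm h0 h1 (tab_ok hp h0 h1 n)))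

lemma info_succ_near {p : ℕ → ℝ} {d l : ℝ} (hp : Law p d) (h0 : -(99 / 500) ≤ l) (h1 : l ≤ 0)
    (n : ℕ) :
    info p l (n + 1) ≤ d * l ^ 2 * info p l n - branch p * l ^ 4 * info p l n ^ 2 / 256 := by
  have hk := tab_ok hp (by linarith) (by linarith : l ≤ 1) n
  have := mix_info_near hp (shift_ok_adm (by linarith) (by linarith : l ≤ 1) hk)
    (shift_close h0 h1 hk)
  rw [shift_mA] at this
  rw [info, mo_tab_succ, info]
  refine le_trans this (le_of_eq ?_)
  ring

theorem nonreconstruction_near {p : ℕ → ℝ} {d l : ℝ} (hp : Law p d) (h0 : -(99 / 500) ≤ l)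
    (h1 : l < 0) (hd : d * l ^ 2 ≤ 1) (hb : 0 < branch p) : Nonreconstruction p l := by
  have ok := tab_ok hp (by linarith) (by linarith : l ≤ 1)
  have nn : ∀ n, 0 ≤ info p l n := fun n => (ok n).mo_nonneg fun _ _ _ => mA_nonneg
  have hl4 : 0 < l ^ 4 := by
    have : l ^ 4 = (l ^ 2) ^ 2 := by ring
    rw [this]
    have : l ≠ 0 := ne_of_lt h1
    positivity
  have hstep : ∀ n, info p l (n + 1) ≤ info p l n - branch p * l ^ 4 * info p l n ^ 2 / 256 :=
    fun n => by
      have := info_succ_near hp h0 h1.le n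
      have := mul_le_mul_of_nonneg_right hd (nn n)
      linarith
  have anti : Antitone (info p l) := antitone_nat_of_succ_le fun n => by
    have := hstep n
    have : 0 ≤ branch p * l ^ 4 * info p l n ^ 2 / 256 := by positivity
    linarith
  obtain ⟨L, hL⟩ : ∃ L, Filter.Tendsto (info p l) Filter.atTop (nhds L) :=
    ⟨_, tendsto_atTop_ciInf anti ⟨0, by rintro x ⟨n, rfl⟩; exact nn n⟩⟩
  have hlim : L ≤ L - branch p * l ^ 4 * L ^ 2 / 256 :=
    le_of_tendsto_of_tendsto (hL.comp (Filter.tendsto_add_atTop_nat 1))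
      (hL.sub (((hL.pow 2).const_mul (branch p * l ^ 4)).div_const 256))
      (Filter.Eventually.of_forall hstep)
  have hpos : 0 < branch p * l ^ 4 := by positivity
  have hL0 : L = 0 := by
    have h2 : branch p * l ^ 4 * L ^ 2 ≤ 0 := by linarith
    have : L ^ 2 = 0 := by nlinarith [sq_nonneg L]
    simpa using this
  rw [hL0] at hL
  rw [Nonreconstruction, Metric.tendsto_atTop]
  intro η hη
  obtain ⟨N, hN⟩ := Metric.tendsto_atTop.mp hL (η ^ 2) (by positivity)
  refine ⟨N, fun n hn => ?_⟩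
  have hinfo := hN n hn
  rw [Real.dist_eq, sub_zero, abs_of_nonneg (nn n)] at hinfo
  have ha := advantage_le (ok n) (ε := η / 2) (by positivity)
  have hpa : 0 ≤ advantage p l n := tsum_nonneg fun _ => by positivity
  rw [Real.dist_eq, sub_zero, abs_of_nonneg hpa]
  have : info p l n / (6 * (η / 2)) < η / 3 := by
    rw [div_lt_iff₀ (by positivity)]; linarith
  linarith

end Vale.Agent.P154
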