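import Vale.Agent.P154.Kron
import Mathlib.Analysis.SpecificLimits.Basic

/-!
Pointwise inequalities for the combination of two three-state posterior vectors.
-/

namespace Vale.Agent.P154

instance : Add Ex := ⟨Ex.add⟩
instance : Mul Ex := ⟨Ex.mul⟩

section generic

variable {α : Type} [Add α] [Mul α] (k : ℤ → α)

/-- Difference. -/
def dif (a b : α) : α := a + k (-1) * b
/-- Sum of coordinates. -/
def tot (p q r : α) : α := p + q + r
/-- The quadratic moment. -/
def quad (p q r : α) : α := dif k (p * p + q * q + r * r) (p * q + p * r + q * r)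
/-- Twice the cubic moment. -/
def cub (p q r : α) : α :=
  dif k (k 2 * p) (q + r) * dif k (k 2 * q) (p + r) * dif k (k 2 * r) (p + q)
/-- One hundred times the numerator of the invariant. -/
def inv100 (p q r : α) : α :=
  dif k (k 50 * cub k p q r * tot p q r) (k 71 * (quad k p q r * quad k p q r))
/-- Numerator of the weight in the closure inequality. -/
def phi (p q r : α) : α :=
  dif k (tot p q r * tot p q r * tot p q r) (k 3 * quad k p q r * tot p q r) + cub k p q r

/-- Polynomial form of the information inequality. -/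
def gPoly (x1 x2 x3 y1 y2 y3 : α) : α :=
  let S := tot x1 x2 x3
  let R := tot y1 y2 y3
  let a := quad k x1 x2 x3
  let b := quad k y1 y2 y3
  let s0 := tot (x1 * y1) (x2 * y2) (x3 * y3)
  let s1 := tot (x1 * y2) (x2 * y3) (x3 * y1)
  let s2 := tot (x1 * y3) (x2 * y1) (x3 * y2)
  let q0 := quad k (x1 * y1) (x2 * y2) (x3 * y3)
  let q1 := quad k (x1 * y2) (x2 * y3) (x3 * y1)
  let q2 := quad k (x1 * y3) (x2 * y1) (x3 * y2)
  let rhs := k 6400 * a * (S * S) * (R * R * R * R) + k 6400 * (S * S * S * S) * b * (R * R)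
    + k (-100) * a * (S * S) * b * (R * R)
    + k (-64) * dif k (k 2 * b * (R * R)) (b * b) * inv100 k x1 x2 x3
    + k (-64) * dif k (k 2 * a * (S * S)) (a * a) * inv100 k y1 y2 y3
  rhs * (s0 * s1 * s2)
    + k (-6400) * (q0 * (s1 * s2) + q1 * (s0 * s2) + q2 * (s0 * s1))
      * (S * R * (S * R) * (S * R))

/-- Polynomial form of the closure inequality. -/
def hPoly (x1 x2 x3 y1 y2 y3 : α) : α :=
  let S := tot x1 x2 x3
  let R := tot y1 y2 y3
  let s0 := tot (x1 * y1) (x2 * y2) (x3 * y3)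
  let s1 := tot (x1 * y2) (x2 * y3) (x3 * y1)
  let s2 := tot (x1 * y3) (x2 * y1) (x3 * y2)
  let f0 := inv100 k (x1 * y1) (x2 * y2) (x3 * y3)
  let f1 := inv100 k (x1 * y2) (x2 * y3) (x3 * y1)
  let f2 := inv100 k (x1 * y3) (x2 * y1) (x3 * y2)
  let c3 := fun z : α => z * z * z
  dif k
    ((f0 * c3 (s1 * s2) + f1 * c3 (s0 * s2) + f2 * c3 (s0 * s1)) * c3 (S * R))
    (c3 (s0 * s1 * s2) *
      (phi k y1 y2 y3 * R * inv100 k x1 x2 x3 + phi k x1 x2 x3 * S * inv100 k y1 y2 y3))

end generic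

/-- Integer vectors spanning a cone. -/
abbrev Cone := (ℤ × ℤ × ℤ) × (ℤ × ℤ × ℤ) × (ℤ × ℤ × ℤ)

/-- A point of a cone, coordinate by coordinate. -/
def combo {α : Type} [Add α] [Mul α] (k : ℤ → α) (u v t : α) (a b c : ℤ) : α :=
  k a * u + k b * v + k c * t

/-- A six-variable function evaluated on two cones. -/
def onCones {α : Type} [Add α] [Mul α] (k : ℤ → α) (F : α → α → α → α → α → α → α)
    (A B : Cone) (u v t U W T : α) : α :=
  F (combo k u v t A.1.1 A.2.1.1 A.2.2.1) (combo k u v t A.1.2.1 A.2.1.2.1 A.2.2.2.1)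
    (combo k u v t A.1.2.2 A.2.1.2.2 A.2.2.2.2)
    (combo k U W T B.1.1 B.2.1.1 B.2.2.1) (combo k U W T B.1.2.1 B.2.1.2.1 B.2.2.2.1)
    (combo k U W T B.1.2.2 B.2.1.2.2 B.2.2.2.2)

/-- The certificate on the normalised pair of cones. -/
def certG (A B : Cone) : Bool :=
  Ex.good 70 8 (onCones Ex.c (gPoly Ex.c) A B (.c 1) (.x 0) (.x 1) (.c 1) (.x 2) (.x 3))

/-- The closure certificate on the normalised pair of cones. -/
def certH (A B : Cone) : Bool :=
  Ex.good 68 14 (onCones Ex.c (hPoly Ex.c) A B (.c 1) (.x 0) (.x 1) (.c 1) (.x 2) (.x 3))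

/-- The real coefficient map. -/
abbrev rc : ℤ → ℝ := fun z => (z : ℝ)

/-- Nonnegativity on a pair of cones. -/
def NN (F : ℝ → ℝ → ℝ → ℝ → ℝ → ℝ → ℝ) (A B : Cone) : Prop :=
  ∀ u v t U W T : ℝ, 0 ≤ u → 0 ≤ v → 0 ≤ t → 0 ≤ U → 0 ≤ W → 0 ≤ T →
    0 ≤ onCones rc F A B u v t U W T

/-- Four values as a valuation. -/
def four (v t W T : ℝ) : ℕ → ℝ
  | 0 => v
  | 1 => t
  | 2 => W
  | 3 => T
  | _ + 4 => 0

lemma four_zero (v t W T : ℝ) : ∀ i, 4 ≤ i → four v t W T i = 0
  | 0, h | 1, h | 2, h | 3, h => absurd h (by omega)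
  | _ + 4, _ => rfl

lemma four_nonneg {v t W T : ℝ} (hv : 0 ≤ v) (ht : 0 ≤ t)
    (hW : 0 ≤ W) (hT : 0 ≤ T) : ∀ i, 0 ≤ four v t W T i
  | 0 => hv
  | 1 => ht
  | 2 => hW
  | 3 => hT
  | _ + 4 => le_refl _

/-- Separate homogeneity of a given degree. -/
def Hom (n : ℕ) (F : ℝ → ℝ → ℝ → ℝ → ℝ → ℝ → ℝ) : Prop :=
  ∀ c d p q r s t u : ℝ,
    F (c * p) (c * q) (c * r) (d * s) (d * t) (d * u) = (c * d) ^ n * F p q r s t u

lemma nn_of_normal {n : ℕ} {F : ℝ → ℝ → ℝ → ℝ → ℝ → ℝ → ℝ} (hF : Hom n F)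
    (hc : ∀ A B : Cone, ∀ u v t U W T : ℝ,
      Continuous fun e : ℝ => onCones rc F A B (u + e) v t (U + e) W T)
    {A B : Cone}
    (h : ∀ v t W T : ℝ, 0 ≤ v → 0 ≤ t → 0 ≤ W → 0 ≤ T →
      0 ≤ onCones rc F A B 1 v t 1 W T) : NN F A B := by
  have pos : ∀ u v t U W T : ℝ, 0 < u → 0 ≤ v → 0 ≤ t → 0 < U → 0 ≤ W → 0 ≤ T →
      0 ≤ onCones rc F A B u v t U W T := by
    intro u v t U W T hu hv ht hU hW hT
    have e1 : ∀ a b c : ℤ, combo rc u v t a b c = u * combo rc 1 (v / u) (t / u) a b c := by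
      intro a b c; simp only [combo]; field_simp
    have e2 : ∀ a b c : ℤ, combo rc U W T a b c = U * combo rc 1 (W / U) (T / U) a b c := by
      intro a b c; simp only [combo]; field_simp
    have := h (v / u) (t / u) (W / U) (T / U) (by positivity) (by positivity)
      (by positivity) (by positivity)
    simp only [onCones] at this ⊢
    simp only [e1, e2]
    rw [hF]
    exact mul_nonneg (by positivity) this
  intro u v t U W T hu hv ht hU hW hT
  have hlim : Filter.Tendsto (fun e : ℝ => onCones rc F A B (u + e) v t (U + e) W T)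
      (nhdsWithin 0 (Set.Ioi 0)) (nhds (onCones rc F A B u v t U W T)) := by
    have := ((hc A B u v t U W T).tendsto 0).mono_left
      (nhdsWithin_le_nhds (s := Set.Ioi (0 : ℝ)))
    simpa using this
  refine ge_of_tendsto hlim ?_
  filter_upwards [self_mem_nhdsWithin] with e he
  have he' : (0 : ℝ) < e := he
  exact pos _ _ _ _ _ _ (by linarith) hv ht (by linarith) hW hT

section hom
variable (c p q r : ℝ)
lemma tot_hom : tot (c * p) (c * q) (c * r) = c * tot p q r := by simp only [tot]; ring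
lemma quad_hom : quad rc (c * p) (c * q) (c * r) = c ^ 2 * quad rc p q r := by
  simp only [quad, dif]; ring
lemma cub_hom : cub rc (c * p) (c * q) (c * r) = c ^ 3 * cub rc p q r := by
  simp only [cub, dif]; ring
lemma inv_hom : inv100 rc (c * p) (c * q) (c * r) = c ^ 4 * inv100 rc p q r := by
  simp only [inv100, tot_hom, quad_hom, cub_hom, dif]; ring
lemma phi_hom : phi rc (c * p) (c * q) (c * r) = c ^ 3 * phi rc p q r := by
  simp only [phi, tot_hom, quad_hom, cub_hom, dif]; ring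
end hom

lemma gPoly_hom : Hom 7 (gPoly rc) := by
  intro c d p q r s t u
  have e : ∀ x y : ℝ, c * x * (d * y) = c * d * (x * y) := fun x y => by ring
  simp only [gPoly, e, tot_hom, quad_hom, inv_hom, dif]
  ring

lemma hPoly_hom : Hom 13 (hPoly rc) := by
  intro c d p q r s t u
  have e : ∀ x y : ℝ, c * x * (d * y) = c * d * (x * y) := fun x y => by ring
  simp only [hPoly, e, tot_hom, inv_hom, phi_hom, dif]
  ring

theorem nn_certG (A B : Cone) (h : certG A B = true) : NN (gPoly rc) A B := by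
  refine nn_of_normal gPoly_hom (fun A B u v t U W T => ?_) (fun v t W T hv ht hW hT => ?_)
  · simp only [onCones, gPoly, combo, tot, quad, cub, inv100, dif]
    fun_prop
  · have := Ex.val_nonneg _ (Ex.good_sound _ _ _ h) (four v t W T) (four_nonneg hv ht hW hT) (four_zero v t W T)
    have e : ((1 : ℤ) : ℝ) = 1 := by norm_num
    rw [← e]
    exact this

theorem nn_certH (A B : Cone) (h : certH A B = true) : NN (hPoly rc) A B := by
  refine nn_of_normal hPoly_hom (fun A B u v t U W T => ?_) (fun v t W T hv ht hW hT => ?_)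
  · simp only [onCones, hPoly, combo, tot, quad, cub, inv100, phi, dif]
    fun_prop
  · have := Ex.val_nonneg _ (Ex.good_sound _ _ _ h) (four v t W T) (four_nonneg hv ht hW hT) (four_zero v t W T)
    have e : ((1 : ℤ) : ℝ) = 1 := by norm_num
    rw [← e]
    exact this

end Vale.Agent.P154
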