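import Vale.Agent.P154.Cover
import Vale.Agent.P154.KronMask

/-!
Certificates for the information inequality.
-/

namespace Vale.Agent.P154

theorem g_same : NN (gPoly rc) coneD coneD := by
  refine splitA12 (splitB12 (splitA12 (splitB12 (splitA13 (splitB13 ?_ ?_) ?_) ?_) ?_) ?_) ?_
  all_goals (apply nn_certG; exact Ex.good_of_goodM (by decide +kernel))

theorem g_rev : NN (gPoly rc) coneD coneR := by
  refine splitA13 (splitB13 ?_ ?_) ?_
  all_goals (apply nn_certG; exact Ex.good_of_goodM (by decide +kernel))

end Vale.Agent.P154
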