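import Vale.Agent.P154.Cover
import Vale.Agent.P154.KronMask

/-!
Certificate for the closure inequality.
-/

namespace Vale.Agent.P154

theorem h_same : NN (hPoly rc) coneD coneD := by
  apply nn_certH; exact Ex.good_of_goodM (by decide +kernel)

end Vale.Agent.P154
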