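import Mathlib.Analysis.SpecialFunctions.Exp
import Mathlib.Topology.Algebra.InfiniteSum.Basic

/-!
Broadcasting of the three-state Potts channel on rooted random trees: definitions.
-/

namespace Vale.Agent.P154

/-- The three-state Potts channel with nontrivial eigenvalue `l`. -/
noncomputable def potts (l : ℝ) (i j : Fin 3) : ℝ := (if i = j then l else 0) + (1 - l) / 3

/-- The observation at depth `n`: the tree down to depth `n` (each vertex carrying the list
of its children) with the spins of the vertices at depth exactly `n`. -/
def Obs : ℕ → Type
  | 0 => Fin 3
  | n + 1 => List (Obs n)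

/-- Probability of an observation given the root spin: the offspring counts are independent
with law `p`, and each child receives its parent's spin through the channel independently. -/
noncomputable def lik (p : ℕ → ℝ) (l : ℝ) : (n : ℕ) → Fin 3 → Obs n → ℝ
  | 0 => fun i (s : Fin 3) => if s = i then 1 else 0
  | n + 1 => fun i (cs : List (Obs n)) =>
      p cs.length * (cs.map fun c => ∑ j, potts l i j * lik p l n j c).prod

/-- Expected total-variation distance between the posterior of the root spin and the uniform
law: the sum over observations `η` of `P(η) * (1/2) * ∑ i, |P(root = i | η) - 1/3|`, written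
without division as `(1/2) * ∑ i, |P(root = i, η) - P(η) / 3|`. -/
noncomputable def advantage (p : ℕ → ℝ) (l : ℝ) (n : ℕ) : ℝ :=
  ∑' η : Obs n, (1 / 2) * ∑ i, |lik p l n i η / 3 - (∑ j, lik p l n j η) / 9|

/-- The offspring law of the rooted regular tree with `d` children per vertex. -/
noncomputable def regularLaw (d : ℕ) : ℕ → ℝ := fun k => if k = d then 1 else 0

/-- The Poisson offspring law with mean `d`. -/
noncomputable def poissonLaw (d : ℝ) : ℕ → ℝ := fun k => Real.exp (-d) * d ^ k / (k.factorial : ℝ)

/-- Nonreconstruction: the advantage tends to zero. -/
def Nonreconstruction (p : ℕ → ℝ) (l : ℝ) : Prop :=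
  Filter.Tendsto (advantage p l) Filter.atTop (nhds 0)

/-- Reconstruction: the advantage stays bounded away from zero at every depth. -/
def Reconstruction (p : ℕ → ℝ) (l : ℝ) : Prop :=
  ∃ ε : ℝ, 0 < ε ∧ ∀ n, ε ≤ advantage p l n

end Vale.Agent.P154
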