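import Vale.Agent.P154.Pointwise
import Vale.Agent.P154.Defs
import Mathlib.Analysis.Normed.Ring.InfiniteSum
import Mathlib.Topology.Algebra.InfiniteSum.Real
import Mathlib.Topology.Algebra.InfiniteSum.Ring
import Mathlib.Topology.Algebra.InfiniteSum.Order

/-!
Channels with a cyclic symmetry, their moments, and their combination.
-/

namespace Vale.Agent.P154

variable {ι κ : Type}

lemma hasSum_val {f : ι → ℝ} {a b : ℝ} (h : HasSum f a) (e : a = b) : HasSum f b := e ▸ h

/-- A likelihood table. -/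
abbrev Lik (ι : Type) := ι → Fin 3 → ℝ

/-- A probability channel with a cyclic symmetry. -/
structure Ok (L : Lik ι) : Prop where
  nonneg : ∀ x i, 0 ≤ L x i
  total : ∀ i, HasSum (fun x => L x i) 1
  rot : ∃ e : ι ≃ ι, ∀ x i, L (e x) (i + 1) = L x i

/-- A moment function applied to one row. -/
def row (g : ℝ → ℝ → ℝ → ℝ) (v : Fin 3 → ℝ) : ℝ := g (v 0) (v 1) (v 2)

/-- The normalised moment of a channel. -/
noncomputable def mo (g : ℝ → ℝ → ℝ → ℝ) (L : Lik ι) : ℝ := (∑' x, row g (L x)) / 3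

/-- Moment functions controlled by the mass. -/
def Dom (g : ℝ → ℝ → ℝ → ℝ) (C : ℝ) : Prop :=
  ∀ p q r : ℝ, 0 ≤ p → 0 ≤ q → 0 ≤ r → |g p q r| ≤ C * mS p q r

lemma dom_mA : Dom mA 1 := fun p q r hp hq hr => by
  rw [abs_of_nonneg (mA_nonneg hp hq hr), one_mul]; exact mA_le hp hq hr

lemma dom_mF : Dom mF 5 := fun _ _ _ hp hq hr => abs_mF_le hp hq hr

lemma dom_mP : Dom mP 27 := fun p q r hp hq hr => by
  rw [abs_of_nonneg (mP_nonneg hp hq hr)]; exact mP_le hp hq hr

lemma dom_mW : Dom mW 2 := fun p q r hp hq hr => by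
  rw [abs_of_nonneg (mW_nonneg hp hq hr)]; exact mW_le hp hq hr

lemma dom_mS : Dom mS 1 := fun p q r hp hq hr => by
  have : 0 ≤ mS p q r := tot_nonneg hp hq hr
  rw [abs_of_nonneg this, one_mul]

variable {L : Lik ι} {M : Lik κ}

lemma Ok.hasSum_mass (h : Ok L) : HasSum (fun x => row mS (L x)) 3 := by
  have := ((h.total 0).add (h.total 1)).add (h.total 2)
  have e : (1 : ℝ) + 1 + 1 = 3 := by norm_num
  rw [e] at this
  exact this

lemma Ok.summable_mom (h : Ok L) {g : ℝ → ℝ → ℝ → ℝ} {C : ℝ} (hg : Dom g C) :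
    Summable fun x => row g (L x) :=
  Summable.of_norm_bounded (h.hasSum_mass.summable.mul_left C)
    (fun x => hg _ _ _ (h.nonneg x 0) (h.nonneg x 1) (h.nonneg x 2))

lemma Ok.mo_mass (h : Ok L) : mo mS L = 1 := by
  rw [mo, h.hasSum_mass.tsum_eq]; norm_num

lemma Ok.mo_nonneg (h : Ok L) {g : ℝ → ℝ → ℝ → ℝ}
    (hg : ∀ p q r : ℝ, 0 ≤ p → 0 ≤ q → 0 ≤ r → 0 ≤ g p q r) : 0 ≤ mo g L :=
  div_nonneg (tsum_nonneg fun x => hg _ _ _ (h.nonneg x 0) (h.nonneg x 1) (h.nonneg x 2))
    (by norm_num)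

lemma Ok.mA_le_one (h : Ok L) : mo mA L ≤ 1 := by
  have : (∑' x, row mA (L x)) ≤ ∑' x, row mS (L x) :=
    (h.summable_mom dom_mA).tsum_le_tsum
      (fun x => mA_le (h.nonneg x 0) (h.nonneg x 1) (h.nonneg x 2)) h.hasSum_mass.summable
  rw [h.hasSum_mass.tsum_eq] at this
  rw [mo]; linarith

/-- Combination of two channels with a common root spin. -/
def pair (L : Lik ι) (M : Lik κ) : Lik (ι × κ) := fun z i => L z.1 i * M z.2 i

lemma pair_ok (hL : Ok L) (hM : Ok M) : Ok (pair L M) where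
  nonneg z i := mul_nonneg (hL.nonneg _ _) (hM.nonneg _ _)
  total i := by
    have hs : Summable fun z : ι × κ => L z.1 i * M z.2 i :=
      (hL.total i).summable.mul_of_nonneg (hM.total i).summable
        (fun x => hL.nonneg x i) (fun y => hM.nonneg y i)
    have := (hL.total i).mul (hM.total i) hs
    rw [one_mul] at this
    exact this
  rot := by
    obtain ⟨e, he⟩ := hL.rot
    obtain ⟨f, hf⟩ := hM.rot
    exact ⟨Equiv.prodCongr e f, fun z i => by simp [pair, he, hf]⟩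

/-- The sum of a moment over the three rotations of the second row. -/
def rots (g : ℝ → ℝ → ℝ → ℝ) (v w : Fin 3 → ℝ) : ℝ :=
  g (v 0 * w 0) (v 1 * w 1) (v 2 * w 2) + g (v 0 * w 1) (v 1 * w 2) (v 2 * w 0)
    + g (v 0 * w 2) (v 1 * w 0) (v 2 * w 1)

lemma pair_rots (hL : Ok L) (hM : Ok M) {g : ℝ → ℝ → ℝ → ℝ} {C : ℝ} (hg : Dom g C) :
    HasSum (fun z : ι × κ => rots g (L z.1) (M z.2)) (9 * mo g (pair L M)) := by
  have h := ((pair_ok hL hM).summable_mom hg).hasSum
  obtain ⟨f, hf⟩ := hM.rot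
  have w0 : ∀ y, M (f y) 0 = M y 2 := fun y => hf y 2
  have w1 : ∀ y, M (f y) 1 = M y 0 := fun y => hf y 0
  have w2 : ∀ y, M (f y) 2 = M y 1 := fun y => hf y 1
  have h1 := (Equiv.hasSum_iff (Equiv.prodCongr (Equiv.refl ι) f)).mpr h
  have h2 := (Equiv.hasSum_iff (Equiv.prodCongr (Equiv.refl ι) (f.trans f))).mpr h
  have hfun : (fun z : ι × κ => rots g (L z.1) (M z.2)) = fun z =>
      row g (pair L M z) + row g (pair L M (Equiv.prodCongr (Equiv.refl ι) (f.trans f) z))
        + row g (pair L M (Equiv.prodCongr (Equiv.refl ι) f z)) := by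
    funext z
    simp only [rots, row, pair, Equiv.prodCongr_apply, Prod.map_fst, Prod.map_snd,
      Equiv.refl_apply, Equiv.trans_apply, w0, w1, w2]
  rw [hfun]
  have := (h.add h2).add h1
  refine hasSum_val this ?_
  rw [mo]; ring

lemma hasSum_prod_mom (hL : Ok L) (hM : Ok M) {g k : ℝ → ℝ → ℝ → ℝ} {C D : ℝ}
    (hg : Dom g C) (hk : Dom k D) :
    HasSum (fun z : ι × κ => row g (L z.1) * row k (M z.2)) (9 * (mo g L * mo k M)) := by
  have sL : Summable fun x => ‖row g (L x)‖ := (hL.summable_mom hg).abs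
  have sM : Summable fun y => ‖row k (M y)‖ := (hM.summable_mom hk).abs
  have := (hL.summable_mom hg).hasSum.mul (hM.summable_mom hk).hasSum
    (summable_mul_of_summable_norm sL sM)
  refine hasSum_val this ?_
  simp only [mo]; ring

theorem pair_info (hL : Ok L) (hM : Ok M) (fL : 0 ≤ mo mF L) (fM : 0 ≤ mo mF M) :
    mo mA (pair L M) ≤ mo mA L + mo mA M - mo mA L * mo mA M / 64 := by
  have hl := pair_rots hL hM dom_mA
  have hr := ((((hasSum_prod_mom hL hM dom_mA dom_mS).add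
      (hasSum_prod_mom hL hM dom_mS dom_mA)).sub
      ((hasSum_prod_mom hL hM dom_mA dom_mA).div_const 64)).sub
      (hasSum_prod_mom hL hM dom_mF dom_mW)).sub (hasSum_prod_mom hL hM dom_mW dom_mF)
  have key := hasSum_le (fun z : ι × κ => ?_) hl hr
  · rw [hM.mo_mass, hL.mo_mass, mul_one, one_mul] at key
    have h1 : 0 ≤ mo mF L * mo mW M :=
      mul_nonneg fL (hM.mo_nonneg fun _ _ _ => mW_nonneg)
    have h2 : 0 ≤ mo mW L * mo mF M :=
      mul_nonneg (hL.mo_nonneg fun _ _ _ => mW_nonneg) fM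
    linarith
  · have := g6_all (hL.nonneg z.1 0) (hL.nonneg z.1 1) (hL.nonneg z.1 2)
      (hM.nonneg z.2 0) (hM.nonneg z.2 1) (hM.nonneg z.2 2)
    simp only [G6] at this
    simp only [rots, row]
    linarith

theorem pair_inv (hL : Ok L) (hM : Ok M) (fL : 0 ≤ mo mF L) (fM : 0 ≤ mo mF M) :
    0 ≤ mo mF (pair L M) := by
  have hr := pair_rots hL hM dom_mF
  have hl := (hasSum_prod_mom hL hM dom_mF dom_mP).add (hasSum_prod_mom hL hM dom_mP dom_mF)
  have key := hasSum_le (fun z : ι × κ => ?_) hl hr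
  · have h1 : 0 ≤ mo mF L * mo mP M :=
      mul_nonneg fL (hM.mo_nonneg fun _ _ _ => mP_nonneg)
    have h2 : 0 ≤ mo mP L * mo mF M :=
      mul_nonneg (hL.mo_nonneg fun _ _ _ => mP_nonneg) fM
    linarith
  · have := h6_all (hL.nonneg z.1 0) (hL.nonneg z.1 1) (hL.nonneg z.1 2)
      (hM.nonneg z.2 0) (hM.nonneg z.2 1) (hM.nonneg z.2 2)
    simp only [H6] at this
    simp only [rots, row]
    linarith

/-- Relabelling the observation space. -/
def reindex (e : κ ≃ ι) (L : Lik ι) : Lik κ := fun y => L (e y)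

lemma reindex_ok (e : κ ≃ ι) (h : Ok L) : Ok (reindex e L) where
  nonneg _ i := h.nonneg _ i
  total i := (Equiv.hasSum_iff e).mpr (h.total i)
  rot := by
    obtain ⟨r, hr⟩ := h.rot
    exact ⟨(e.trans r).trans e.symm, fun y i => by simp [reindex, hr]⟩

lemma mo_reindex (e : κ ≃ ι) (g : ℝ → ℝ → ℝ → ℝ) : mo g (reindex e L) = mo g L := by
  rw [mo, mo]; congr 1
  exact e.tsum_eq fun x => row g (L x)

/-- The channel seen through one edge. -/
noncomputable def shift (l : ℝ) (L : Lik ι) : Lik ι := fun x i => ∑ j, potts l i j * L x j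

lemma shift_eq (l : ℝ) (L : Lik ι) (x : ι) (i : Fin 3) :
    shift l L x i = l * L x i + (1 - l) / 3 * (L x 0 + L x 1 + L x 2) := by
  fin_cases i <;> simp [shift, potts, Fin.sum_univ_three] <;> ring

lemma shift_ok {l : ℝ} (h0 : 0 ≤ l) (h1 : l ≤ 1) (h : Ok L) : Ok (shift l L) where
  nonneg x i := by
    rw [shift_eq]
    have := h.nonneg x 0; have := h.nonneg x 1; have := h.nonneg x 2; have := h.nonneg x i
    have : 0 ≤ (1 - l) / 3 := by linarith
    positivity
  total i := by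
    have := ((h.total i).mul_left l).add
      (((h.total 0).add (h.total 1)).add (h.total 2) |>.mul_left ((1 - l) / 3))
    simp only [shift_eq]
    refine hasSum_val this ?_
    ring
  rot := by
    obtain ⟨r, hr⟩ := h.rot
    refine ⟨r, fun x i => ?_⟩
    have a0 : L (r x) 0 = L x 2 := hr x 2
    have a1 : L (r x) 1 = L x 0 := hr x 0
    have a2 : L (r x) 2 = L x 1 := hr x 1
    rw [shift_eq, shift_eq, hr, a0, a1, a2]; ring

lemma shift_row (l : ℝ) (L : Lik ι) (x : ι) :
    tot (shift l L x 0) (shift l L x 1) (shift l L x 2) = tot (L x 0) (L x 1) (L x 2) ∧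
    quad rc (shift l L x 0) (shift l L x 1) (shift l L x 2)
      = l ^ 2 * quad rc (L x 0) (L x 1) (L x 2) ∧
    cub rc (shift l L x 0) (shift l L x 1) (shift l L x 2)
      = l ^ 3 * cub rc (L x 0) (L x 1) (L x 2) := by
  simp only [shift_eq, tot, quad, cub, dif]
  push_cast
  refine ⟨?_, ?_, ?_⟩ <;> ring

lemma shift_mA (l : ℝ) (L : Lik ι) : mo mA (shift l L) = l ^ 2 * mo mA L := by
  have : ∀ x, row mA (shift l L x) = l ^ 2 * row mA (L x) := fun x => by
    obtain ⟨a, b, -⟩ := shift_row l L x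
    rw [row, row, mA, mA, a, b, mul_div_assoc]
  rw [mo, mo]; simp only [this]; rw [tsum_mul_left]; ring

lemma shift_mF {l : ℝ} (h0 : 0 ≤ l) (h1 : l ≤ 1) (h : Ok L) :
    l ^ 3 * mo mF L ≤ mo mF (shift l L) := by
  have hx : ∀ x, l ^ 3 * row mF (L x) ≤ row mF (shift l L x) := fun x => by
    obtain ⟨a, b, c⟩ := shift_row l L x
    have hS : 0 ≤ tot (L x 0) (L x 1) (L x 2) :=
      tot_nonneg (h.nonneg x 0) (h.nonneg x 1) (h.nonneg x 2)
    rw [row, row, mF, mF, inv100, inv100, a, b, c, ← mul_div_assoc]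
    refine div_le_div_of_nonneg_right ?_ (by positivity)
    have hl : l ^ 4 ≤ l ^ 3 := pow_le_pow_of_le_one h0 h1 (by norm_num)
    have hq := mul_self_nonneg (quad rc (L x 0) (L x 1) (L x 2))
    have := mul_le_mul_of_nonneg_right hl hq
    simp only [dif, rc] at this ⊢
    push_cast at this ⊢
    nlinarith
  have h2 : (∑' x, l ^ 3 * row mF (L x)) ≤ ∑' x, row mF (shift l L x) :=
    ((h.summable_mom dom_mF).mul_left _).tsum_le_tsum hx
      ((shift_ok h0 h1 h).summable_mom dom_mF)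
  rw [tsum_mul_left] at h2
  rw [mo, mo]; linarith

end Vale.Agent.P154
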