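import Vale.Agent.P154.Cert
import Mathlib.Tactic.Ring
import Mathlib.Tactic.Linarith

/-!
Splitting a cone along an edge.
-/

namespace Vale.Agent.P154

/-- Sum of integer vectors. -/
def vadd3 (a b : ℤ × ℤ × ℤ) : ℤ × ℤ × ℤ := (a.1 + b.1, a.2.1 + b.2.1, a.2.2 + b.2.2)
/-- Replace the first generator by its sum with the second. -/
def repl12 (A : Cone) : Cone := (vadd3 A.1 A.2.1, A.2.1, A.2.2)
/-- Replace the second generator by its sum with the first. -/
def repl21 (A : Cone) : Cone := (A.1, vadd3 A.1 A.2.1, A.2.2)
/-- Replace the first generator by its sum with the third. -/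
def repl13 (A : Cone) : Cone := (vadd3 A.1 A.2.2, A.2.1, A.2.2)
/-- Replace the third generator by its sum with the first. -/
def repl31 (A : Cone) : Cone := (A.1, A.2.1, vadd3 A.1 A.2.2)

lemma combo12_le (u v t : ℝ) (a b c : ℤ) :
    combo rc u v t a b c = combo rc (u - v) v t a (a + b) c := by
  simp only [combo, rc]; push_cast; ring
lemma combo12_ge (u v t : ℝ) (a b c : ℤ) :
    combo rc u v t a b c = combo rc u (v - u) t (a + b) b c := by
  simp only [combo, rc]; push_cast; ring
lemma combo13_le (u v t : ℝ) (a b c : ℤ) :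
    combo rc u v t a b c = combo rc (u - t) v t a b (a + c) := by
  simp only [combo, rc]; push_cast; ring
lemma combo13_ge (u v t : ℝ) (a b c : ℤ) :
    combo rc u v t a b c = combo rc u v (t - u) (a + c) b c := by
  simp only [combo, rc]; push_cast; ring

variable {F : ℝ → ℝ → ℝ → ℝ → ℝ → ℝ → ℝ}

lemma splitA12 {A B : Cone} (h1 : NN F (repl21 A) B) (h2 : NN F (repl12 A) B) : NN F A B := by
  intro u v t U W T hu hv ht hU hW hT
  rcases le_total v u with h | h
  · have h' := h1 (u - v) v t U W T (by linarith) hv ht hU hW hT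
    simp only [onCones, repl21, vadd3, ← combo12_le] at h' ⊢
    exact h'
  · have h' := h2 u (v - u) t U W T hu (by linarith) ht hU hW hT
    simp only [onCones, repl12, vadd3, ← combo12_ge] at h' ⊢
    exact h'

lemma splitB12 {A B : Cone} (h1 : NN F A (repl21 B)) (h2 : NN F A (repl12 B)) : NN F A B := by
  intro u v t U W T hu hv ht hU hW hT
  rcases le_total W U with h | h
  · have h' := h1 u v t (U - W) W T hu hv ht (by linarith) hW hT
    simp only [onCones, repl21, vadd3, ← combo12_le] at h' ⊢
    exact h'
  · have h' := h2 u v t U (W - U) T hu hv ht hU (by linarith) hT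
    simp only [onCones, repl12, vadd3, ← combo12_ge] at h' ⊢
    exact h'

lemma splitA13 {A B : Cone} (h1 : NN F (repl31 A) B) (h2 : NN F (repl13 A) B) : NN F A B := by
  intro u v t U W T hu hv ht hU hW hT
  rcases le_total t u with h | h
  · have h' := h1 (u - t) v t U W T (by linarith) hv ht hU hW hT
    simp only [onCones, repl31, vadd3, ← combo13_le] at h' ⊢
    exact h'
  · have h' := h2 u v (t - u) U W T hu hv (by linarith) hU hW hT
    simp only [onCones, repl13, vadd3, ← combo13_ge] at h' ⊢
    exact h'

lemma splitB13 {A B : Cone} (h1 : NN F A (repl31 B)) (h2 : NN F A (repl13 B)) : NN F A B := by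
  intro u v t U W T hu hv ht hU hW hT
  rcases le_total T U with h | h
  · have h' := h1 u v t (U - T) W T hu hv ht (by linarith) hW hT
    simp only [onCones, repl31, vadd3, ← combo13_le] at h' ⊢
    exact h'
  · have h' := h2 u v t U W (T - U) hu hv ht hU hW (by linarith)
    simp only [onCones, repl13, vadd3, ← combo13_ge] at h' ⊢
    exact h'

/-- The ordered cone. -/
abbrev coneD : Cone := ((1, 0, 0), (1, 1, 0), (1, 1, 1))
/-- The ordered cone in the reversed orientation. -/
abbrev coneR : Cone := ((1, 0, 0), (1, 0, 1), (1, 1, 1))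

end Vale.Agent.P154
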