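import Vale.Agent.P154.Channel
import Mathlib.Data.List.OfFn
import Mathlib.Data.Fin.Tuple.Basic
import Mathlib.Algebra.BigOperators.Fin
import Mathlib.Topology.Algebra.InfiniteSum.Constructions

/-!
The depth recursion and the contraction of the information.
-/

namespace Vale.Agent.P154

variable {ι : Type}

/-- An offspring law with finite mean. -/
structure Law (p : ℕ → ℝ) (d : ℝ) : Prop where
  nonneg : ∀ n, 0 ≤ p n
  total : HasSum p 1
  mean : HasSum (fun n : ℕ => (n : ℝ) * p n) d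

/-- Independent copies of a channel. -/
def power (L : Lik ι) (N : ℕ) : Lik (Fin N → ι) := fun x i => ∏ j, L (x j) i

lemma power_succ (L : Lik ι) (N : ℕ) :
    power L (N + 1) = reindex (Fin.consEquiv fun _ => ι).symm (pair L (power L N)) := by
  funext x i
  simp [power, reindex, pair, Fin.prod_univ_succ, Fin.consEquiv, Fin.tail]

lemma power_zero_mom (g : ℝ → ℝ → ℝ → ℝ) (L : Lik ι) : mo g (power L 0) = g 1 1 1 / 3 := by
  rw [mo, tsum_eq_single default (fun x hx => absurd (Subsingleton.elim x default) hx)]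
  simp [row, power]

lemma power_ok (L : Lik ι) (h : Ok L) : ∀ N, Ok (power L N)
  | 0 => {
      nonneg := fun x i => by simp [power]
      total := fun i => by
        have := hasSum_single (f := fun x : Fin 0 → ι => power L 0 x i) default
          (fun x hx => absurd (Subsingleton.elim x default) hx)
        simpa [power] using this
      rot := ⟨Equiv.refl _, fun x i => by simp [power]⟩ }
  | N + 1 => by
      rw [power_succ]
      exact reindex_ok _ (pair_ok h (power_ok L h N))

lemma mF_ones : mF 1 1 1 = 0 := by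
  simp only [mF, inv100, cub, quad, tot, dif, rc]; norm_num

lemma mA_ones : mA 1 1 1 = 0 := by
  simp only [mA, quad, tot, dif, rc]; norm_num

lemma power_inv (L : Lik ι) (h : Ok L) (hF : 0 ≤ mo mF L) : ∀ N, 0 ≤ mo mF (power L N)
  | 0 => by rw [power_zero_mom, mF_ones]; norm_num
  | N + 1 => by
      rw [power_succ, mo_reindex]
      exact pair_inv h (power_ok L h N) hF (power_inv L h hF N)

/-- The bound on the information of `N` independent copies. -/
noncomputable def gb (x : ℝ) : ℕ → ℝ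
  | 0 => 0
  | N + 1 => x + (1 - x / 64) * gb x N

lemma gb_nonneg {x : ℝ} (h0 : 0 ≤ x) (h1 : x ≤ 1) : ∀ N, 0 ≤ gb x N
  | 0 => le_rfl
  | N + 1 => by
      simp only [gb]
      have := gb_nonneg h0 h1 N
      have : 0 ≤ (1 - x / 64) * gb x N := mul_nonneg (by linarith) this
      linarith

lemma gb_le {x : ℝ} (h0 : 0 ≤ x) (h1 : x ≤ 1) :
    ∀ N : ℕ, gb x N ≤ (N : ℝ) * x - (if 2 ≤ N then x ^ 2 / 64 else 0)
  | 0 => by simp [gb]
  | 1 => by simp [gb]
  | N + 2 => by
      rw [if_pos (by omega)]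
      have hN := gb_le h0 h1 (N + 1)
      have hg := gb_nonneg h0 h1 (N + 1)
      simp only [gb] at hN hg ⊢
      have e : ((N + 2 : ℕ) : ℝ) = (N : ℝ) + 2 := by push_cast; ring
      rw [e]
      push_cast at hN
      split_ifs at hN with h
      · have hx : 0 ≤ x / 64 * (x + (1 - x / 64) * gb x N) := by positivity
        nlinarith
      · have : N = 0 := by omega
        subst this
        simp only [gb, Nat.cast_zero] at hN hg ⊢
        nlinarith

lemma power_info (L : Lik ι) (h : Ok L) (hF : 0 ≤ mo mF L) :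
    ∀ N, mo mA (power L N) ≤ gb (mo mA L) N
  | 0 => by rw [power_zero_mom, mA_ones]; simp [gb]
  | N + 1 => by
      rw [power_succ, mo_reindex]
      have hp := pair_info h (power_ok L h N) hF (power_inv L h hF N)
      have ih := power_info L h hF N
      have h1 : mo mA L ≤ 1 := h.mA_le_one
      have h0 : 0 ≤ mo mA L := h.mo_nonneg fun _ _ _ => mA_nonneg
      have h2 : (1 - mo mA L / 64) * mo mA (power L N) ≤ (1 - mo mA L / 64) * gb (mo mA L) N :=
        mul_le_mul_of_nonneg_left ih (by linarith)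
      simp only [gb]
      linarith

/-- Random number of copies, the number being observed. -/
def mix (p : ℕ → ℝ) (L : Lik ι) : Lik (Σ N, Fin N → ι) := fun s i => p s.1 * power L s.1 s.2 i

lemma mix_ok {p : ℕ → ℝ} {d : ℝ} (hp : Law p d) {L : Lik ι} (h : Ok L) : Ok (mix p L) where
  nonneg s i := mul_nonneg (hp.nonneg _) ((power_ok L h _).nonneg _ _)
  total i := by
    have hf : ∀ N, HasSum (fun x : Fin N → ι => mix p L ⟨N, x⟩ i) (p N) := fun N => by
      have := ((power_ok L h N).total i).mul_left (p N)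
      rwa [mul_one] at this
    have hs : Summable fun s : Σ N, Fin N → ι => mix p L s i :=
      (summable_sigma_of_nonneg fun s => mul_nonneg (hp.nonneg _)
        ((power_ok L h _).nonneg _ _)).mpr
        ⟨fun N => (hf N).summable,
          hp.total.summable.congr fun N => ((hf N).tsum_eq).symm⟩
    exact HasSum.sigma_of_hasSum hp.total hf hs
  rot := by
    choose e he using fun N => (power_ok L h N).rot
    exact ⟨Equiv.sigmaCongrRight e, fun ⟨N, x⟩ i => by
      change p N * power L N (e N x) (i + 1) = p N * power L N x i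
      rw [he]⟩

lemma mix_mom {p : ℕ → ℝ} {d : ℝ} (hp : Law p d) {L : Lik ι} (h : Ok L)
    {g : ℝ → ℝ → ℝ → ℝ} {C : ℝ} (hg : Dom g C)
    (hom : ∀ c a b e : ℝ, g (c * a) (c * b) (c * e) = c * g a b e) :
    HasSum (fun N => p N * mo g (power L N)) (mo g (mix p L)) := by
  have hs := (mix_ok hp h).summable_mom hg
  have hf : ∀ N, HasSum (fun x : Fin N → ι => row g (mix p L ⟨N, x⟩))
      (p N * (3 * mo g (power L N))) := fun N => by
    have := ((power_ok L h N).summable_mom hg).hasSum.mul_left (p N)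
    have e : (3 * mo g (power L N)) = ∑' x, row g (power L N x) := by rw [mo]; ring
    rw [e]
    simpa only [row, mix, hom] using this
  have := (hs.hasSum.sigma hf).div_const 3
  refine (this.congr_fun fun N => ?_)
  ring

lemma mA_scale (c a b e : ℝ) : mA (c * a) (c * b) (c * e) = c * mA a b e := by
  rw [mA, mA, tot_hom, quad_hom]
  by_cases hc : c = 0
  · simp [hc]
  · field_simp

lemma mF_scale (c a b e : ℝ) : mF (c * a) (c * b) (c * e) = c * mF a b e := by
  rw [mF, mF, tot_hom, inv_hom]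
  by_cases hc : c = 0
  · simp [hc]
  · field_simp

/-- The probability of at least two children. -/
noncomputable def branch (p : ℕ → ℝ) : ℝ := ∑' n, if 2 ≤ n then p n else 0

lemma branch_hasSum {p : ℕ → ℝ} {d : ℝ} (hp : Law p d) :
    HasSum (fun n => if 2 ≤ n then p n else 0) (branch p) :=
  (Summable.of_nonneg_of_le (fun n => by split_ifs <;> simp [hp.nonneg n])
    (fun n => by split_ifs <;> simp [hp.nonneg n]) hp.total.summable).hasSum

lemma mix_info {p : ℕ → ℝ} {d : ℝ} (hp : Law p d) {L : Lik ι} (h : Ok L) (hF : 0 ≤ mo mF L) :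
    mo mA (mix p L) ≤ d * mo mA L - branch p * mo mA L ^ 2 / 64 := by
  have h0 : 0 ≤ mo mA L := h.mo_nonneg fun _ _ _ => mA_nonneg
  refine hasSum_le (fun N => ?_) (mix_mom hp h dom_mA mA_scale)
    ((hp.mean.mul_right (mo mA L)).sub
      (((branch_hasSum hp).mul_right (mo mA L ^ 2)).div_const 64))
  have := mul_le_mul_of_nonneg_left
    (le_trans (power_info L h hF N) (gb_le h0 h.mA_le_one N)) (hp.nonneg N)
  split_ifs with hN
  · rw [if_pos hN] at this; linarith
  · rw [if_neg hN] at this; linarith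

lemma mix_inv {p : ℕ → ℝ} {d : ℝ} (hp : Law p d) {L : Lik ι} (h : Ok L) (hF : 0 ≤ mo mF L) :
    0 ≤ mo mF (mix p L) :=
  (mix_mom hp h dom_mF mF_scale).nonneg fun N => mul_nonneg (hp.nonneg N) (power_inv L h hF N)

/-- The likelihood table at depth `n`. -/
noncomputable def tab (p : ℕ → ℝ) (l : ℝ) (n : ℕ) : Lik (Obs n) := fun η i => lik p l n i η

lemma tab_succ (p : ℕ → ℝ) (l : ℝ) (n : ℕ) :
    tab p l (n + 1) = reindex List.equivSigmaTuple (mix p (shift l (tab p l n))) := by
  funext cs i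
  change p cs.length * (cs.map fun c => ∑ j, potts l i j * lik p l n j c).prod
    = p cs.length * ∏ k : Fin cs.length, shift l (tab p l n) (cs.get k) i
  congr 1
  conv_lhs => rw [← List.ofFn_get cs, List.map_ofFn, List.prod_ofFn]
  rfl

lemma leaf_row (s : Fin 3) {g : ℝ → ℝ → ℝ → ℝ}
    (hrot : ∀ a b e : ℝ, g b e a = g a b e) (p : ℕ → ℝ) (l : ℝ) :
    row g (tab p l 0 s) = g 1 0 0 := by
  fin_cases s
  · simp [row, tab, lik]
  · simp [row, tab, lik]; rw [hrot 0 1 0]
  · simp [row, tab, lik]; rw [hrot 1 0 0]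

lemma tab_zero_ok (p : ℕ → ℝ) (l : ℝ) : Ok (tab p l 0) := by
  refine ⟨fun s i => ?_, fun i => ?_,
    ⟨(show Fin 3 ≃ Fin 3 from Equiv.addRight 1), fun s i => ?_⟩⟩
  · simp only [tab, lik]; split_ifs <;> norm_num
  · exact hasSum_ite_eq (i : Fin 3) (1 : ℝ)
  · change (if (show Fin 3 from s) + 1 = i + 1 then (1 : ℝ) else 0)
      = if (show Fin 3 from s) = i then (1 : ℝ) else 0
    exact if_congr (add_left_inj (1 : Fin 3)) rfl rfl

lemma tab_zero_inv (p : ℕ → ℝ) (l : ℝ) : 0 ≤ mo mF (tab p l 0) := by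
  refine div_nonneg (tsum_nonneg fun s => ?_) (by norm_num)
  rw [leaf_row s mF_rot p l]
  simp only [mF, inv100, cub, quad, tot, dif, rc]; norm_num

lemma mo_tab_succ (p : ℕ → ℝ) (l : ℝ) (n : ℕ) (g : ℝ → ℝ → ℝ → ℝ) :
    mo g (tab p l (n + 1)) = mo g (mix p (shift l (tab p l n))) := by
  rw [tab_succ]; exact mo_reindex _ g

lemma tab_spec {p : ℕ → ℝ} {d l : ℝ} (hp : Law p d) (h0 : 0 ≤ l) (h1 : l ≤ 1) :
    ∀ n, Ok (tab p l n) ∧ 0 ≤ mo mF (tab p l n)
  | 0 => ⟨tab_zero_ok p l, tab_zero_inv p l⟩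
  | n + 1 => by
      obtain ⟨hk, hF⟩ := tab_spec hp h0 h1 n
      have hs := shift_ok h0 h1 hk
      have hFs : 0 ≤ mo mF (shift l (tab p l n)) :=
        le_trans (mul_nonneg (pow_nonneg h0 3) hF) (shift_mF h0 h1 hk)
      refine ⟨?_, ?_⟩
      · rw [tab_succ]; exact reindex_ok _ (mix_ok hp hs)
      · rw [mo_tab_succ]; exact mix_inv hp hs hFs

/-- The information at depth `n`. -/
noncomputable def info (p : ℕ → ℝ) (l : ℝ) (n : ℕ) : ℝ := mo mA (tab p l n)

lemma info_succ {p : ℕ → ℝ} {d l : ℝ} (hp : Law p d) (h0 : 0 ≤ l) (h1 : l ≤ 1) (n : ℕ) :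
    info p l (n + 1) ≤ d * l ^ 2 * info p l n - branch p * l ^ 4 * info p l n ^ 2 / 64 := by
  obtain ⟨hk, hF⟩ := tab_spec hp h0 h1 n
  have hFs : 0 ≤ mo mF (shift l (tab p l n)) :=
    le_trans (mul_nonneg (pow_nonneg h0 3) hF) (shift_mF h0 h1 hk)
  have := mix_info hp (shift_ok h0 h1 hk) hFs
  rw [shift_mA] at this
  rw [info, mo_tab_succ, info]
  refine le_trans this (le_of_eq ?_)
  ring

lemma info_tendsto_zero {p : ℕ → ℝ} {d l : ℝ} (hp : Law p d) (h0 : 0 ≤ l) (h1 : l ≤ 1)
    (hd : d * l ^ 2 ≤ 1) (hb : 0 < branch p) :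
    Filter.Tendsto (info p l) Filter.atTop (nhds 0) := by
  have nn : ∀ n, 0 ≤ info p l n := fun n =>
    (tab_spec hp h0 h1 n).1.mo_nonneg fun _ _ _ => mA_nonneg
  rcases eq_or_lt_of_le h0 with hl | hl
  · refine tendsto_const_nhds.congr' ?_
    refine Filter.eventually_atTop.mpr ⟨1, fun n hn => ?_⟩
    obtain ⟨m, rfl⟩ : ∃ m, n = m + 1 := ⟨n - 1, by omega⟩
    have := info_succ hp h0 h1 m
    rw [← hl] at this ⊢
    have := nn (m + 1)
    rw [← hl] at this
    linarith
  · have hstep : ∀ n, info p l (n + 1) ≤ info p l n - branch p * l ^ 4 * info p l n ^ 2 / 64 :=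
      fun n => by
        have := info_succ hp h0 h1 n
        have := mul_le_mul_of_nonneg_right hd (nn n)
        linarith
    have anti : Antitone (info p l) := antitone_nat_of_succ_le fun n => by
      have := hstep n
      have : 0 ≤ branch p * l ^ 4 * info p l n ^ 2 / 64 := by positivity
      linarith
    obtain ⟨L, hL⟩ : ∃ L, Filter.Tendsto (info p l) Filter.atTop (nhds L) :=
      ⟨_, tendsto_atTop_ciInf anti ⟨0, by rintro x ⟨n, rfl⟩; exact nn n⟩⟩
    have hlim : L ≤ L - branch p * l ^ 4 * L ^ 2 / 64 :=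
      le_of_tendsto_of_tendsto (hL.comp (Filter.tendsto_add_atTop_nat 1))
        (hL.sub (((hL.pow 2).const_mul (branch p * l ^ 4)).div_const 64))
        (Filter.Eventually.of_forall hstep)
    have hpos : 0 < branch p * l ^ 4 := by positivity
    have : L ^ 2 = 0 := by
      have h2 : branch p * l ^ 4 * L ^ 2 ≤ 0 := by linarith
      nlinarith [sq_nonneg L]
    have : L = 0 := by simpa using this
    rwa [this] at hL

lemma adv_term_le {ε : ℝ} (hε : 0 < ε) (v : Fin 3 → ℝ) (hv : ∀ i, 0 ≤ v i) :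
    (1 / 2) * ∑ i, |v i / 3 - (∑ j, v j) / 9|
      ≤ ε / 4 * row mS v + 1 / (18 * ε) * row mA v := by
  simp only [Fin.sum_univ_three, row, mS, mA]
  set S := tot (v 0) (v 1) (v 2) with hS
  have e : v 0 + v 1 + v 2 = S := rfl
  rw [e]
  rcases eq_or_lt_of_le (tot_nonneg (hv 0) (hv 1) (hv 2)) with h | h
  · have h' : S = 0 := h.symm
    have a0 : v 0 = 0 := by linarith [hv 0, hv 1, hv 2]
    have a1 : v 1 = 0 := by linarith [hv 0, hv 1, hv 2]
    have a2 : v 2 = 0 := by linarith [hv 0, hv 1, hv 2]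
    rw [h', a0, a1, a2]; norm_num
  · have key : ∀ i : Fin 3,
        |v i / 3 - S / 9| ≤ ε * S / 6 + (v i - S / 3) ^ 2 / (6 * ε * S) := by
      intro i
      have hpos : (0 : ℝ) < 6 * ε * S := by positivity
      rw [abs_le]
      constructor <;>
        · rw [← sub_nonneg]
          have h6 : (v i - S / 3) ^ 2 = (v i - S / 3) ^ 2 / (6 * ε * S) * (6 * ε * S) :=
            (div_mul_cancel₀ _ hpos.ne').symm
          nlinarith [sq_nonneg (v i - S / 3 - ε * S), sq_nonneg (v i - S / 3 + ε * S)]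
    have hsum : (v 0 - S / 3) ^ 2 + (v 1 - S / 3) ^ 2 + (v 2 - S / 3) ^ 2
        = 2 / 3 * quad rc (v 0) (v 1) (v 2) := by
      rw [← e]; simp only [quad, dif]; push_cast; ring
    have h3 : (v 0 - S / 3) ^ 2 / (6 * ε * S) + (v 1 - S / 3) ^ 2 / (6 * ε * S)
        + (v 2 - S / 3) ^ 2 / (6 * ε * S)
        = 2 * (1 / (18 * ε) * (quad rc (v 0) (v 1) (v 2) / S)) := by
      rw [← add_div, ← add_div, hsum]; field_simp; ring
    linarith [key 0, key 1, key 2]

lemma adv_term_ge (v : Fin 3 → ℝ) (hv : ∀ i, 0 ≤ v i) :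
    row mA v ≤ 9 * ((1 / 2) * ∑ i, |v i / 3 - (∑ j, v j) / 9|) := by
  simp only [Fin.sum_univ_three, row, mA]
  set S := tot (v 0) (v 1) (v 2) with hS
  have e : v 0 + v 1 + v 2 = S := rfl
  rw [e]
  rcases eq_or_lt_of_le (tot_nonneg (hv 0) (hv 1) (hv 2)) with h | h
  · have h' : S = 0 := h.symm
    rw [h', div_zero]; positivity
  · have key : ∀ i : Fin 3, (v i - S / 3) ^ 2 ≤ S * (3 * |v i / 3 - S / 9|) := by
      intro i
      have a : |v i - S / 3| = 3 * |v i / 3 - S / 9| := by
        rw [← abs_of_pos (show (0 : ℝ) < 3 by norm_num), ← abs_mul]; congr 1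
        rw [abs_of_pos (show (0 : ℝ) < 3 by norm_num)]; ring
      have b : |v i - S / 3| ≤ S := by
        have h1 : v i ≤ S := by
          fin_cases i <;> simp <;> linarith [hv 0, hv 1, hv 2]
        rw [abs_le]; constructor <;> linarith [hv i]
      rw [← a, ← sq_abs, pow_two]
      exact mul_le_mul_of_nonneg_right b (abs_nonneg _)
    have hsum : (v 0 - S / 3) ^ 2 + (v 1 - S / 3) ^ 2 + (v 2 - S / 3) ^ 2
        = 2 / 3 * quad rc (v 0) (v 1) (v 2) := by
      rw [← e]; simp only [quad, dif]; push_cast; ring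
    rw [div_le_iff₀ h]
    linarith [key 0, key 1, key 2]

lemma advantage_le {p : ℕ → ℝ} {l : ℝ} {n : ℕ} (h : Ok (tab p l n)) {ε : ℝ} (hε : 0 < ε) :
    advantage p l n ≤ 3 * ε / 4 + info p l n / (6 * ε) := by
  have hr := ((h.hasSum_mass.mul_left (ε / 4)).add
    ((h.summable_mom dom_mA).hasSum.mul_left (1 / (18 * ε))))
  have hl : Summable fun η : Obs n =>
      (1 / 2) * ∑ i, |lik p l n i η / 3 - (∑ j, lik p l n j η) / 9| :=
    Summable.of_nonneg_of_le (fun η => by positivity)
      (fun η => adv_term_le hε (tab p l n η) (h.nonneg η)) hr.summable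
  refine le_trans (hasSum_le (fun η => adv_term_le hε (tab p l n η) (h.nonneg η)) hl.hasSum hr)
    (le_of_eq ?_)
  rw [info, mo]; field_simp; ring

lemma info_le_advantage {p : ℕ → ℝ} {l : ℝ} {n : ℕ} (h : Ok (tab p l n)) :
    info p l n ≤ 3 * advantage p l n := by
  have hr := (h.hasSum_mass.mul_left ((1 : ℝ) / 4)).add
    ((h.summable_mom dom_mA).hasSum.mul_left (1 / (18 * (1 : ℝ))))
  have hl : Summable fun η : Obs n =>
      (1 / 2) * ∑ i, |lik p l n i η / 3 - (∑ j, lik p l n j η) / 9| :=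
    Summable.of_nonneg_of_le (fun η => by positivity)
      (fun η => adv_term_le one_pos (tab p l n η) (h.nonneg η)) hr.summable
  have key : (∑' η, row mA (tab p l n η)) ≤ 9 * advantage p l n :=
    hasSum_le (fun η => adv_term_ge (tab p l n η) (h.nonneg η)) (h.summable_mom dom_mA).hasSum
      (hl.hasSum.mul_left 9)
  rw [info, mo]; linarith

theorem nonreconstruction_of_le {p : ℕ → ℝ} {d l : ℝ} (hp : Law p d) (h0 : 0 ≤ l) (h1 : l ≤ 1)
    (hd : d * l ^ 2 ≤ 1) (hb : 0 < branch p) : Nonreconstruction p l := by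
  rw [Nonreconstruction, Metric.tendsto_atTop]
  intro η hη
  obtain ⟨N, hN⟩ := Metric.tendsto_atTop.mp (info_tendsto_zero hp h0 h1 hd hb) (η ^ 2)
    (by positivity)
  refine ⟨N, fun n hn => ?_⟩
  have hinfo := hN n hn
  have hnn : 0 ≤ info p l n := (tab_spec hp h0 h1 n).1.mo_nonneg fun _ _ _ => mA_nonneg
  rw [Real.dist_eq, sub_zero, abs_of_nonneg hnn] at hinfo
  have ha := advantage_le (tab_spec hp h0 h1 n).1 (ε := η / 2) (by positivity)
  have hpos : 0 ≤ advantage p l n := tsum_nonneg fun _ => by positivity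
  rw [Real.dist_eq, sub_zero, abs_of_nonneg hpos]
  have : info p l n / (6 * (η / 2)) < η / 3 := by
    rw [div_lt_iff₀ (by positivity)]; linarith
  linarith

end Vale.Agent.P154
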