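import Vale.Agent.P154.Poly
import Mathlib.Algebra.Order.Ring.Abs
import Mathlib.Algebra.Order.Ring.Pow
import Mathlib.Tactic.Positivity

/-!
Checking nonnegativity of all coefficients through one large integer: every variable is
replaced by a power of a large base, and the coefficients are read off as digits.
-/

namespace Vale.Agent.P154

namespace Pol

/-- Horner evaluation over the integers. -/
def listEvalZ {α : Type} (e : α → ℤ) (x : ℤ) : List α → ℤ
  | [] => 0
  | a :: as => e a + x * listEvalZ e x as

/-- Integer evaluation. -/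
def evalZ (x : ℕ → ℤ) : (n : ℕ) → Pol n → ℤ
  | 0 => fun (a : ℤ) => a
  | n + 1 => fun (a : List (Pol n)) => listEvalZ (evalZ x n) (x n) a

/-- Sum of the absolute values of the coefficients. -/
def size : (n : ℕ) → Pol n → ℤ
  | 0 => fun (a : ℤ) => |a|
  | n + 1 => fun (a : List (Pol n)) => listEvalZ (size n) 1 a

/-- Degree bound in every variable. -/
def Deg (d : ℕ → ℕ) : (n : ℕ) → Pol n → Prop
  | 0 => fun _ => True
  | n + 1 => fun (a : List (Pol n)) => a.length ≤ d n + 1 ∧ ∀ b ∈ a, Deg d n b

lemma evalZ_cast (x : ℕ → ℤ) : ∀ n a, ((evalZ x n a : ℤ) : ℝ) = eval (fun i => (x i : ℝ)) n a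
  | 0, a => rfl
  | n + 1, a => by
    change ((listEvalZ (evalZ x n) (x n) a : ℤ) : ℝ)
      = listEval (eval (fun i => (x i : ℝ)) n) (x n : ℝ) a
    induction a with
    | nil => simp [listEvalZ, listEval]
    | cons c cs ih => simp only [listEvalZ, listEval, Int.cast_add, Int.cast_mul, ih,
        evalZ_cast x n c]

lemma size_nonneg : ∀ n a, 0 ≤ size n a
  | 0, a => abs_nonneg (a : ℤ)
  | n + 1, a => by
    change 0 ≤ listEvalZ (size n) 1 a
    induction a with
    | nil => simp [listEvalZ]
    | cons c cs ih => simp only [listEvalZ]; have := size_nonneg n c; linarith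

lemma size_zero : ∀ n, size n (zero n) = 0
  | 0 => abs_zero
  | _ + 1 => rfl

lemma size_const : ∀ n (z : ℤ), size n (const n z) = |z|
  | 0, _ => rfl
  | n + 1, z => by
    change size n (const n z) + 1 * 0 = |z|
    rw [size_const n z]; ring

lemma size_var : ∀ n i, size n (var n i) ≤ 1
  | 0, _ => by change |(0 : ℤ)| ≤ 1; simp
  | n + 1, i => by
    by_cases hi : i = n
    · subst hi
      rw [var, if_pos rfl]
      change size i (zero i) + 1 * (size i (const i 1) + 1 * 0) ≤ 1
      rw [size_zero, size_const]; simp
    · rw [var, if_neg hi]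
      change size n (var n i) + 1 * 0 ≤ 1
      linarith [size_var n i]

lemma size_zipAdd {α : Type} (f : α → α → α) (s : α → ℤ)
    (hf : ∀ a b, s (f a b) ≤ s a + s b) :
    ∀ as bs, listEvalZ s 1 (zipAdd f as bs) ≤ listEvalZ s 1 as + listEvalZ s 1 bs
  | [], bs => by simp [zipAdd, listEvalZ]
  | a :: as, [] => by simp [zipAdd, listEvalZ]
  | a :: as, b :: bs => by
    simp only [zipAdd, listEvalZ]
    linarith [hf a b, size_zipAdd f s hf as bs]

lemma size_add : ∀ n a b, size n (add n a b) ≤ size n a + size n b
  | 0, a, b => abs_add_le (a : ℤ) (b : ℤ)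
  | n + 1, a, b => size_zipAdd _ _ (size_add n) a b

lemma size_map {α : Type} (s : α → ℤ) (h : α → α) (c : ℤ) (hh : ∀ b, s (h b) ≤ c * s b) :
    ∀ bs, listEvalZ s 1 (bs.map h) ≤ c * listEvalZ s 1 bs
  | [] => by simp [listEvalZ]
  | b :: bs => by
    simp only [List.map, listEvalZ]
    linarith [hh b, size_map s h c hh bs]

lemma size_mul : ∀ n a b, size n (mul n a b) ≤ size n a * size n b
  | 0, a, b => le_of_eq (abs_mul (a : ℤ) (b : ℤ))
  | n + 1, a, b => by
    change listEvalZ (size n) 1 (listMul (zero n) (add n) (mul n) a b)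
      ≤ listEvalZ (size n) 1 a * listEvalZ (size n) 1 b
    induction a with
    | nil => simp [listMul, listEvalZ]
    | cons c cs ih =>
      simp only [listMul]
      refine le_trans (size_zipAdd _ _ (size_add n) _ _) ?_
      have h1 := size_map (size n) (mul n c) (size n c) (fun b => size_mul n c b) b
      simp only [listEvalZ, size_zero]
      linarith

lemma deg_mono {d e : ℕ → ℕ} (h : ∀ i, d i ≤ e i) : ∀ n a, Deg d n a → Deg e n a
  | 0, _, _ => trivial
  | n + 1, _, ha => ⟨le_trans ha.1 (by have := h n; omega),
      fun b hb => deg_mono h n b (ha.2 b hb)⟩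

lemma deg_zero (d : ℕ → ℕ) : ∀ n, Deg d n (zero n)
  | 0 => trivial
  | n + 1 => ⟨Nat.zero_le _, fun _ hb => absurd hb List.not_mem_nil⟩

lemma deg_const (d : ℕ → ℕ) : ∀ n z, Deg d n (const n z)
  | 0, _ => trivial
  | n + 1, z => ⟨Nat.le_add_left _ _, fun b hb => by
      change b ∈ [const n z] at hb
      rw [List.mem_singleton] at hb
      exact hb ▸ deg_const d n z⟩

lemma deg_var (d : ℕ → ℕ) (i : ℕ) (hd : 1 ≤ d i) : ∀ n, Deg d n (var n i)
  | 0 => trivial
  | n + 1 => by
    by_cases hi : i = n
    · rw [var, if_pos hi]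
      refine ⟨?_, fun b hb => ?_⟩
      · change 2 ≤ d n + 1; subst hi; omega
      · change b ∈ [zero n, const n 1] at hb
        rcases List.mem_cons.mp hb with h | h
        · exact h ▸ deg_zero d n
        · rw [List.mem_singleton] at h; exact h ▸ deg_const d n 1
    · rw [var, if_neg hi]
      refine ⟨Nat.le_add_left _ _, fun b hb => ?_⟩
      change b ∈ [var n i] at hb
      rw [List.mem_singleton] at hb
      exact hb ▸ deg_var d i hd n

lemma zipAdd_len {α : Type} (f : α → α → α) :
    ∀ as bs : List α, (zipAdd f as bs).length = max as.length bs.length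
  | [], bs => by simp [zipAdd]
  | a :: as, [] => by simp [zipAdd]
  | a :: as, b :: bs => by
    simp only [zipAdd, List.length_cons, zipAdd_len f as bs]; omega

lemma zipAdd_all {α : Type} (f : α → α → α) (P : α → Prop) (hf : ∀ a b, P a → P b → P (f a b)) :
    ∀ as bs : List α, (∀ a ∈ as, P a) → (∀ b ∈ bs, P b) → ∀ c ∈ zipAdd f as bs, P c
  | [], bs, _, hb => by simpa [zipAdd] using hb
  | a :: as, [], ha, _ => by simpa [zipAdd] using ha
  | a :: as, b :: bs, ha, hb => by
    intro c hc
    simp only [zipAdd, List.mem_cons] at hc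
    rcases hc with rfl | hc
    · exact hf a b (ha a List.mem_cons_self) (hb b List.mem_cons_self)
    · exact zipAdd_all f P hf as bs (fun x hx => ha x (List.mem_cons_of_mem _ hx))
        (fun x hx => hb x (List.mem_cons_of_mem _ hx)) c hc

lemma deg_add (d : ℕ → ℕ) : ∀ n a b, Deg d n a → Deg d n b → Deg d n (add n a b)
  | 0, _, _, _, _ => trivial
  | n + 1, a, b, ha, hb => by
    refine ⟨?_, zipAdd_all _ _ (deg_add d n) a b ha.2 hb.2⟩
    have h := zipAdd_len (add n) a b
    change (zipAdd (add n) a b).length ≤ d n + 1
    rw [h]; exact max_le ha.1 hb.1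

lemma deg_mul (d e : ℕ → ℕ) :
    ∀ n a b, Deg d n a → Deg e n b → Deg (fun i => d i + e i) n (mul n a b)
  | 0, _, _, _, _ => trivial
  | n + 1, a, b, ha, hb => by
    change (listMul (zero n) (add n) (mul n) a b).length ≤ d n + e n + 1 ∧
      ∀ c ∈ listMul (zero n) (add n) (mul n) a b, Deg (fun i => d i + e i) n c
    have hlen : ∀ (as : List (Pol n)) (B : ℕ), b.length ≤ B + 1 →
        (listMul (zero n) (add n) (mul n) as b).length ≤ as.length + B := by
      intro as B hB
      induction as with
      | nil => simp [listMul]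
      | cons c cs ih =>
        simp only [listMul, zipAdd_len, List.length_map, List.length_cons]; omega
    have hall : ∀ as : List (Pol n), (∀ x ∈ as, Deg d n x) →
        ∀ c ∈ listMul (zero n) (add n) (mul n) as b, Deg (fun i => d i + e i) n c := by
      intro as has
      induction as with
      | nil => simp [listMul]
      | cons c cs ih =>
        simp only [listMul]
        refine zipAdd_all _ _ (deg_add _ n) _ _ ?_ ?_
        · intro x hx
          obtain ⟨y, hy, rfl⟩ := List.mem_map.mp hx
          exact deg_mul d e n c y (has c List.mem_cons_self) (hb.2 y hy)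
        · intro x hx
          rcases List.mem_cons.mp hx with h | h
          · exact h ▸ deg_zero _ n
          · exact ih (fun z hz => has z (List.mem_cons_of_mem _ hz)) x h
    refine ⟨?_, hall a ha.2⟩
    have := hlen a (e n) hb.1
    have := ha.1
    omega

/-- Base used at level `n` when every degree is below `D`. -/
def base (bits D : ℕ) (n : ℕ) : ℤ := (2 : ℤ) ^ (bits * D ^ n)

/-- Read `k` digits in base `X` and test each with `chk`. -/
def digits (chk : ℤ → Bool) (X : ℤ) : ℕ → ℤ → Bool
  | 0, N => decide (N = 0)
  | k + 1, N => decide (2 * (N % X) < X) && chk (N % X) && digits chk X k (N / X)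

/-- The digit test, level by level. -/
def check (bits D : ℕ) : ℕ → ℤ → Bool
  | 0, N => decide (0 ≤ N)
  | n + 1, N => digits (check bits D n) (base bits D n) D N

lemma abs_evalZ_le (bits D : ℕ) (d : ℕ → ℕ) (hd : ∀ i, d i < D) :
    ∀ n a, Deg d n a → |evalZ (base bits D) n a| ≤ size n a * (2 : ℤ) ^ (bits * (D ^ n - 1))
  | 0, a, _ => by
    change |(a : ℤ)| ≤ |(a : ℤ)| * _
    simp
  | n + 1, a, ha => by
    change |listEvalZ (evalZ (base bits D) n) (base bits D n) a|
      ≤ listEvalZ (size n) 1 a * (2 : ℤ) ^ (bits * (D ^ (n + 1) - 1))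
    obtain ⟨hl, hm⟩ := ha
    have hD : 0 < D := lt_of_le_of_lt (Nat.zero_le _) (hd 0)
    have key : ∀ as : List (Pol n), (∀ b ∈ as, Deg d n b) →
        ∀ L, as.length ≤ L + 1 →
        |listEvalZ (evalZ (base bits D) n) (base bits D n) as|
          ≤ listEvalZ (size n) 1 as * (2 : ℤ) ^ (bits * (D ^ n - 1) + bits * D ^ n * L) := by
      intro as
      induction as with
      | nil => intro _ L _; simp [listEvalZ]
      | cons c cs ih =>
        intro hm L hL
        simp only [listEvalZ, one_mul]
        have h1 := abs_evalZ_le bits D d hd n c (hm c List.mem_cons_self)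
        have hc0 := size_nonneg n c
        refine le_trans (abs_add_le _ _) ?_
        rw [add_mul]
        refine add_le_add (le_trans h1 ?_) ?_
        · gcongr
          · norm_num
          · omega
        · rcases L with _ | L
          · have : cs = [] := List.length_eq_zero_iff.mp (by simp only [List.length_cons] at hL; omega)
            subst this
            simp [listEvalZ]
          · have h2 := ih (fun b hb => hm b (List.mem_cons_of_mem _ hb)) L
              (by simp only [List.length_cons] at hL; omega)
            rw [abs_mul, base, abs_of_nonneg (by positivity : (0 : ℤ) ≤ 2 ^ (bits * D ^ n))]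
            calc (2 : ℤ) ^ (bits * D ^ n) * |listEvalZ (evalZ (base bits D) n) _ cs|
                ≤ 2 ^ (bits * D ^ n) * (listEvalZ (size n) 1 cs
                    * 2 ^ (bits * (D ^ n - 1) + bits * D ^ n * L)) :=
                  mul_le_mul_of_nonneg_left h2 (by positivity)
              _ = listEvalZ (size n) 1 cs
                    * 2 ^ (bits * (D ^ n - 1) + bits * D ^ n * (L + 1)) := by
                  rw [mul_add (bits * D ^ n), mul_one, ← add_assoc, pow_add]; ring
    refine le_trans (key a hm (D - 1) (le_trans hl (by have := hd n; omega))) ?_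
    refine mul_le_mul_of_nonneg_left ?_ (size_nonneg (n + 1) a)
    refine pow_le_pow_right₀ (by norm_num) ?_
    have h1 : 1 ≤ D ^ n := Nat.one_le_pow _ _ hD
    obtain ⟨E, rfl⟩ : ∃ E, D = E + 1 := ⟨D - 1, by omega⟩
    obtain ⟨p, hp⟩ : ∃ p, (E + 1) ^ n = p + 1 := ⟨(E + 1) ^ n - 1, by omega⟩
    rw [pow_succ, hp, Nat.add_sub_cancel, Nat.add_sub_cancel]
    have e : (p + 1) * (E + 1) = (p + (p + 1) * E) + 1 := by ring
    rw [e, Nat.add_sub_cancel]
    exact le_of_eq (by ring)

lemma check_sound (bits D : ℕ) (d : ℕ → ℕ) (hd : ∀ i, d i < D) :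
    ∀ n a, Deg d n a → 2 * size n a < (2 : ℤ) ^ bits →
      check bits D n (evalZ (base bits D) n a) = true → nonneg n a = true
  | 0, a, _, _, h => h
  | n + 1, a, ha, hs, h => by
    change List.all a (nonneg n) = true
    rw [List.all_eq_true]
    obtain ⟨hl, hm⟩ := ha
    change 2 * listEvalZ (size n) 1 a < _ at hs
    change digits (check bits D n) (base bits D n) D
      (listEvalZ (evalZ (base bits D) n) (base bits D n) a) = true at h
    have key : ∀ as : List (Pol n), (∀ b ∈ as, Deg d n b) →
        2 * listEvalZ (size n) 1 as < (2 : ℤ) ^ bits → ∀ k, as.length ≤ k →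
        digits (check bits D n) (base bits D n) k
          (listEvalZ (evalZ (base bits D) n) (base bits D n) as) = true →
        ∀ b ∈ as, nonneg n b = true := by
      intro as
      induction as with
      | nil => intro _ _ _ _ _ b hb; exact absurd hb List.not_mem_nil
      | cons c cs ih =>
        intro hm hs k hk hdig
        simp only [List.length_cons] at hk
        obtain ⟨k, rfl⟩ : ∃ j, k = j + 1 := ⟨k - 1, by omega⟩
        simp only [digits, Bool.and_eq_true] at hdig
        obtain ⟨⟨h1', h2⟩, h3⟩ := hdig
        have h1 := of_decide_eq_true h1'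
        simp only [listEvalZ] at h1 h2 h3
        simp only [listEvalZ, one_mul] at hs
        have hcs : 0 ≤ listEvalZ (size n) 1 cs := size_nonneg (n + 1) cs
        have hc0 := size_nonneg n c
        have hb := abs_evalZ_le bits D d hd n c (hm c List.mem_cons_self)
        set X := base bits D n with hX
        set v := evalZ (base bits D) n c
        set t := listEvalZ (evalZ (base bits D) n) X cs
        have hXpos : 0 < X := by rw [hX, base]; positivity
        have hsmall : 2 * |v| < X := by
          have h4 : 2 * |v| ≤ (2 * size n c) * (2 : ℤ) ^ (bits * (D ^ n - 1)) := by linarith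
          have h5 : (2 * size n c) * (2 : ℤ) ^ (bits * (D ^ n - 1))
              < (2 : ℤ) ^ bits * (2 : ℤ) ^ (bits * (D ^ n - 1)) :=
            mul_lt_mul_of_pos_right (by linarith) (by positivity)
          have h6 : (2 : ℤ) ^ bits * (2 : ℤ) ^ (bits * (D ^ n - 1)) = X := by
            rw [hX, base, ← pow_add]; congr 1
            have h7 : 1 ≤ D ^ n := Nat.one_le_pow _ _
              (lt_of_le_of_lt (Nat.zero_le _) (hd 0))
            obtain ⟨p, hp⟩ : ∃ p, D ^ n = p + 1 := ⟨D ^ n - 1, by omega⟩
            rw [hp, Nat.add_sub_cancel]; ring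
          linarith
        have hmod : (v + X * t) % X = v % X := Int.add_mul_emod_self_left v X t
        have hv : 0 ≤ v := by
          by_contra hneg
          have h8 : (v + X) % X = v % X := Int.add_emod_right v X
          have h9 : (v + X) % X = v + X := Int.emod_eq_of_lt
            (by have := abs_lt.mp (show |v| < X by linarith [abs_nonneg v]); linarith) (by linarith)
          rw [hmod, ← h8, h9] at h1
          rw [abs_of_neg (by linarith)] at hsmall
          linarith
        have hvX : v < X := by rw [abs_of_nonneg hv] at hsmall; linarith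
        have hdiv : (v + X * t) / X = t := by
          rw [Int.add_mul_ediv_left v t (ne_of_gt hXpos), Int.ediv_eq_zero_of_lt hv hvX, zero_add]
        rw [hmod, Int.emod_eq_of_lt hv hvX] at h2
        rw [hdiv] at h3
        intro b hb'
        rcases List.mem_cons.mp hb' with rfl | hb'
        · exact check_sound bits D d hd n _ (hm _ List.mem_cons_self) (by linarith) h2
        · exact ih (fun z hz => hm z (List.mem_cons_of_mem _ hz)) (by linarith) k (by omega) h3 b hb'
    exact key a hm hs D (le_trans hl (by have := hd n; omega)) h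

end Pol

namespace Ex

/-- Value over the integers. -/
def valZ (ρ : ℕ → ℤ) : Ex → ℤ
  | c z => z
  | x i => ρ i
  | add a b => valZ ρ a + valZ ρ b
  | mul a b => valZ ρ a * valZ ρ b

/-- A bound on the coefficient size. -/
def bound : Ex → ℤ
  | c z => |z|
  | x _ => 1
  | add a b => bound a + bound b
  | mul a b => bound a * bound b

/-- Degree in one variable. -/
def deg (i : ℕ) : Ex → ℕ
  | c _ => 0
  | x j => if i = j then 1 else 0
  | add a b => max (deg i a) (deg i b)
  | mul a b => deg i a + deg i b

/-- The packed substitution. -/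
def packed (bits D : ℕ) (i : ℕ) : ℤ := if i < 4 then Pol.base bits D i else 0

lemma size_norm : ∀ e : Ex, Pol.size 4 (norm e) ≤ bound e
  | c z => le_of_eq (Pol.size_const 4 z)
  | x i => by
    by_cases h : i < 4
    · simp only [norm, if_pos h, bound]; exact Pol.size_var 4 i
    · simp only [norm, if_neg h, bound, Pol.size_zero]; norm_num
  | add a b => le_trans (Pol.size_add 4 _ _) (add_le_add (size_norm a) (size_norm b))
  | mul a b => le_trans (Pol.size_mul 4 _ _)
      (mul_le_mul (size_norm a) (size_norm b) (Pol.size_nonneg 4 _)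
        (le_trans (Pol.size_nonneg 4 _) (size_norm a)))

lemma deg_norm : ∀ e : Ex, Pol.Deg (fun i => deg i e) 4 (norm e)
  | c z => Pol.deg_const _ 4 z
  | x j => by
    by_cases h : j < 4
    · simp only [norm, if_pos h]; exact Pol.deg_var _ j (by simp [deg]) 4
    · simp only [norm, if_neg h]; exact Pol.deg_zero _ 4
  | add a b => Pol.deg_add _ 4 _ _
      (Pol.deg_mono (fun i => le_max_left (deg i a) (deg i b)) 4 _ (deg_norm a))
      (Pol.deg_mono (fun i => le_max_right (deg i a) (deg i b)) 4 _ (deg_norm b))
  | mul a b => Pol.deg_mul _ _ 4 _ _ (deg_norm a) (deg_norm b)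

lemma evalZ_norm (bits D : ℕ) : ∀ e : Ex,
    Pol.evalZ (Pol.base bits D) 4 (norm e) = valZ (packed bits D) e := by
  intro e
  have h : ∀ e : Ex, Pol.eval (fun i => ((Pol.base bits D i : ℤ) : ℝ)) 4 (norm e)
      = ((valZ (packed bits D) e : ℤ) : ℝ) := by
    intro e
    induction e with
    | c z => exact Pol.eval_const _ 4 z
    | x i =>
      by_cases h : i < 4
      · simp only [norm, if_pos h, valZ, packed, Pol.eval_var _ 4 i h]
      · simp only [norm, if_neg h, valZ, packed, Pol.eval_zero, Int.cast_zero]
    | add a b iha ihb => simp only [norm, valZ, Pol.eval_add, iha, ihb, Int.cast_add]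
    | mul a b iha ihb => simp only [norm, valZ, Pol.eval_mul, iha, ihb, Int.cast_mul]
  have h2 := (Pol.evalZ_cast (Pol.base bits D) 4 (norm e)).trans (h e)
  exact_mod_cast h2

/-- All the tests for one expression. -/
def good (bits D : ℕ) (e : Ex) : Bool :=
  decide (deg 0 e < D) && decide (deg 1 e < D) && decide (deg 2 e < D) && decide (deg 3 e < D)
    && decide (2 * bound e < (2 : ℤ) ^ bits) && Pol.check bits D 4 (valZ (packed bits D) e)

lemma good_sound (bits D : ℕ) (e : Ex) (h : good bits D e = true) :
    Pol.nonneg 4 (norm e) = true := by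
  simp only [good, Bool.and_eq_true, decide_eq_true_eq] at h
  obtain ⟨⟨⟨⟨⟨h0, h1⟩, h2⟩, h3⟩, hb⟩, hc⟩ := h
  have hdeg : Pol.Deg (fun i => if i < 4 then deg i e else 0) 4 (norm e) := by
    have := deg_norm e
    refine ⟨?_, fun b hb => ⟨?_, fun c hc => ⟨?_, fun d hd => ⟨?_, fun _ _ => trivial⟩⟩⟩⟩
    · simpa using this.1
    · simpa using (this.2 b hb).1
    · simpa using ((this.2 b hb).2 c hc).1
    · simpa using (((this.2 b hb).2 c hc).2 d hd).1
  refine Pol.check_sound bits D _ (fun i => ?_) 4 _ hdeg ?_ ?_
  · rcases Nat.lt_or_ge i 4 with hi | hi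
    · rw [if_pos hi]
      rcases i with _ | _ | _ | _ | i <;> omega
    · rw [if_neg (not_lt.mpr hi)]; omega
  · have := size_norm e; linarith
  · rw [evalZ_norm]; exact hc

end Ex

end Vale.Agent.P154
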