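import Vale.Agent.P154.Cert
import Mathlib.Tactic.FieldSimp

/-!
Degree-one moment functions of three-state likelihood vectors.
-/

namespace Vale.Agent.P154


/-- Total mass. -/
noncomputable def mS (p q r : ℝ) : ℝ := tot p q r
/-- Squared length of the posterior coordinate, weighted by the mass. -/
noncomputable def mA (p q r : ℝ) : ℝ := quad rc p q r / tot p q r
/-- The invariant, weighted by the mass. -/
noncomputable def mF (p q r : ℝ) : ℝ := inv100 rc p q r / (100 * tot p q r ^ 3)
/-- The nonnegative closure weight. -/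
noncomputable def mP (p q r : ℝ) : ℝ := phi rc p q r / tot p q r ^ 2
/-- The nonnegative coefficient in the information inequality. -/
noncomputable def mW (p q r : ℝ) : ℝ :=
  2 * mA p q r - quad rc p q r ^ 2 / tot p q r ^ 3

section symm
variable (p q r : ℝ)

lemma quad_rot : quad rc q r p = quad rc p q r := by simp only [quad, dif, rc]; push_cast; ring
lemma quad_swap : quad rc p r q = quad rc p q r := by simp only [quad, dif, rc]; push_cast; ring
lemma cub_rot : cub rc q r p = cub rc p q r := by simp only [cub, dif, rc]; push_cast; ring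
lemma cub_swap : cub rc p r q = cub rc p q r := by simp only [cub, dif, rc]; push_cast; ring
lemma tot_rot : tot q r p = tot p q r := by simp only [tot]; ring
lemma tot_swap : tot p r q = tot p q r := by simp only [tot]; ring

lemma inv_rot : inv100 rc q r p = inv100 rc p q r := by
  simp only [inv100, quad_rot p q r, cub_rot p q r, tot_rot p q r]
lemma inv_swap : inv100 rc p r q = inv100 rc p q r := by
  simp only [inv100, quad_swap p q r, cub_swap p q r, tot_swap p q r]
lemma phi_rot : phi rc q r p = phi rc p q r := by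
  simp only [phi, quad_rot p q r, cub_rot p q r, tot_rot p q r]
lemma phi_swap : phi rc p r q = phi rc p q r := by
  simp only [phi, quad_swap p q r, cub_swap p q r, tot_swap p q r]

lemma mS_rot : mS q r p = mS p q r := tot_rot p q r
lemma mS_swap : mS p r q = mS p q r := tot_swap p q r
lemma mA_rot : mA q r p = mA p q r := by simp only [mA, quad_rot p q r, tot_rot p q r]
lemma mA_swap : mA p r q = mA p q r := by simp only [mA, quad_swap p q r, tot_swap p q r]
lemma mF_rot : mF q r p = mF p q r := by simp only [mF, inv_rot p q r, tot_rot p q r]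
lemma mF_swap : mF p r q = mF p q r := by simp only [mF, inv_swap p q r, tot_swap p q r]
lemma mP_rot : mP q r p = mP p q r := by simp only [mP, phi_rot p q r, tot_rot p q r]
lemma mP_swap : mP p r q = mP p q r := by simp only [mP, phi_swap p q r, tot_swap p q r]
lemma mW_rot : mW q r p = mW p q r := by
  simp only [mW, mA_rot p q r, quad_rot p q r, tot_rot p q r]
lemma mW_swap : mW p r q = mW p q r := by
  simp only [mW, mA_swap p q r, quad_swap p q r, tot_swap p q r]

end symm

section bounds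
variable {p q r : ℝ}

lemma tot_nonneg (hp : 0 ≤ p) (hq : 0 ≤ q) (hr : 0 ≤ r) : 0 ≤ tot p q r := by
  simp only [tot]; linarith

lemma quad_nonneg : 0 ≤ quad rc p q r := by
  simp only [quad, dif, rc]; push_cast
  nlinarith [sq_nonneg (p - q), sq_nonneg (p - r), sq_nonneg (q - r)]

lemma quad_le (hp : 0 ≤ p) (hq : 0 ≤ q) (hr : 0 ≤ r) : quad rc p q r ≤ tot p q r ^ 2 := by
  simp only [quad, dif, rc, tot]; push_cast
  nlinarith [mul_nonneg hp hq, mul_nonneg hp hr, mul_nonneg hq hr]

lemma phi_eq : phi rc p q r = 27 * (p * q * r) := by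
  simp only [phi, dif, quad, cub, rc, tot]; push_cast; ring

lemma abs_cub_le (hp : 0 ≤ p) (hq : 0 ≤ q) (hr : 0 ≤ r) :
    |cub rc p q r| ≤ 8 * tot p q r ^ 3 := by
  have h1 : |2 * p - (q + r)| ≤ 2 * tot p q r := by
    simp only [tot]; rw [abs_le]; constructor <;> linarith
  have h2 : |2 * q - (p + r)| ≤ 2 * tot p q r := by
    simp only [tot]; rw [abs_le]; constructor <;> linarith
  have h3 : |2 * r - (p + q)| ≤ 2 * tot p q r := by
    simp only [tot]; rw [abs_le]; constructor <;> linarith
  have e : cub rc p q r = (2 * p - (q + r)) * (2 * q - (p + r)) * (2 * r - (p + q)) := by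
    simp only [cub, dif, rc]; push_cast; ring
  rw [e, abs_mul, abs_mul]
  have := tot_nonneg hp hq hr
  calc |2 * p - (q + r)| * |2 * q - (p + r)| * |2 * r - (p + q)|
      ≤ (2 * tot p q r) * (2 * tot p q r) * (2 * tot p q r) := by gcongr
    _ = 8 * tot p q r ^ 3 := by ring

lemma abs_inv_le (hp : 0 ≤ p) (hq : 0 ≤ q) (hr : 0 ≤ r) :
    |inv100 rc p q r| ≤ 471 * tot p q r ^ 4 := by
  have hS := tot_nonneg hp hq hr
  have ha := quad_le hp hq hr
  have h0 := quad_nonneg (p := p) (q := q) (r := r)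
  have hc := abs_le.mp (abs_cub_le hp hq hr)
  simp only [inv100, dif, rc]; push_cast
  have h2 : quad rc p q r * quad rc p q r ≤ tot p q r ^ 4 := by
    calc quad rc p q r * quad rc p q r ≤ tot p q r ^ 2 * tot p q r ^ 2 := by gcongr
      _ = tot p q r ^ 4 := by ring
  have h3 := mul_le_mul_of_nonneg_right hc.2 hS
  have h4 := mul_le_mul_of_nonneg_right hc.1 hS
  have h5 := mul_nonneg h0 h0
  have h6 : (8 * tot p q r ^ 3) * tot p q r = 8 * tot p q r ^ 4 := by ring
  rw [abs_le]; constructor <;> nlinarith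

lemma mA_nonneg (hp : 0 ≤ p) (hq : 0 ≤ q) (hr : 0 ≤ r) : 0 ≤ mA p q r :=
  div_nonneg quad_nonneg (tot_nonneg hp hq hr)

lemma mA_le (hp : 0 ≤ p) (hq : 0 ≤ q) (hr : 0 ≤ r) : mA p q r ≤ mS p q r := by
  rcases eq_or_lt_of_le (tot_nonneg hp hq hr) with h | h
  · rw [mA, ← h, div_zero]; exact tot_nonneg hp hq hr
  · rw [mA, mS, div_le_iff₀ h, ← pow_two]; exact quad_le hp hq hr

lemma abs_mF_le (hp : 0 ≤ p) (hq : 0 ≤ q) (hr : 0 ≤ r) : |mF p q r| ≤ 5 * mS p q r := by
  rcases eq_or_lt_of_le (tot_nonneg hp hq hr) with h | h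
  · rw [mF, mS, ← h]; norm_num
  · rw [mF, mS, abs_div, abs_of_pos (show (0:ℝ) < 100 * tot p q r ^ 3 by positivity),
      div_le_iff₀ (by positivity)]
    calc |inv100 rc p q r| ≤ 471 * tot p q r ^ 4 := abs_inv_le hp hq hr
      _ ≤ 5 * tot p q r * (100 * tot p q r ^ 3) := by nlinarith [pow_pos h 4]

lemma mP_nonneg (hp : 0 ≤ p) (hq : 0 ≤ q) (hr : 0 ≤ r) : 0 ≤ mP p q r := by
  rw [mP, phi_eq]; positivity

lemma mP_le (hp : 0 ≤ p) (hq : 0 ≤ q) (hr : 0 ≤ r) : mP p q r ≤ 27 * mS p q r := by
  rcases eq_or_lt_of_le (tot_nonneg hp hq hr) with h | h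
  · rw [mP, mS, ← h]; norm_num
  · rw [mP, mS, phi_eq, div_le_iff₀ (by positivity)]
    have h1 : p ≤ tot p q r := by simp only [tot]; linarith
    have h2 : q ≤ tot p q r := by simp only [tot]; linarith
    have h3 : r ≤ tot p q r := by simp only [tot]; linarith
    calc 27 * (p * q * r) ≤ 27 * (tot p q r * tot p q r * tot p q r) := by gcongr
      _ = 27 * tot p q r * tot p q r ^ 2 := by ring

lemma mW_nonneg (hp : 0 ≤ p) (hq : 0 ≤ q) (hr : 0 ≤ r) : 0 ≤ mW p q r := by
  rcases eq_or_lt_of_le (tot_nonneg hp hq hr) with h | h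
  · rw [mW, mA, ← h]; norm_num
  · have ha := quad_le hp hq hr
    have h0 := quad_nonneg (p := p) (q := q) (r := r)
    have e : mW p q r = quad rc p q r * (2 * tot p q r ^ 2 - quad rc p q r) / tot p q r ^ 3 := by
      simp only [mW, mA]; field_simp
    rw [e]; exact div_nonneg (mul_nonneg h0 (by nlinarith)) (by positivity)

lemma mW_le (hp : 0 ≤ p) (hq : 0 ≤ q) (hr : 0 ≤ r) : mW p q r ≤ 2 * mS p q r := by
  have h := mA_le hp hq hr
  have h1 : 0 ≤ quad rc p q r ^ 2 / tot p q r ^ 3 :=
    div_nonneg (sq_nonneg _) (pow_nonneg (tot_nonneg hp hq hr) 3)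
  simp only [mW]; linarith

lemma quad_sq_le (hp : 0 ≤ p) (hq : 0 ≤ q) (hr : 0 ≤ r) :
    quad rc p q r ^ 2 / tot p q r ^ 3 ≤ mS p q r := by
  rcases eq_or_lt_of_le (tot_nonneg hp hq hr) with h | h
  · rw [mS, ← h]; norm_num
  · rw [mS, div_le_iff₀ (by positivity)]
    calc quad rc p q r ^ 2 ≤ (tot p q r ^ 2) ^ 2 := by
          gcongr; exacts [quad_nonneg, quad_le hp hq hr]
      _ = tot p q r * tot p q r ^ 3 := by ring

end bounds

end Vale.Agent.P154
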