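import Vale.Agent.P154.Moments
import Vale.Agent.P154.CertG
import Vale.Agent.P154.CertH1
import Vale.Agent.P154.CertH2
import Mathlib.Analysis.SpecificLimits.Basic
import Mathlib.Tactic.FieldSimp
import Mathlib.Analysis.Normed.Group.Basic
import Mathlib.Analysis.SpecificLimits.Normed

/-!
The two pointwise inequalities for arbitrary nonnegative three-state vectors.
-/

namespace Vale.Agent.P154

open Filter Topology

/-- The information inequality at a pair of vectors. -/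
def G6 (x1 x2 x3 y1 y2 y3 : ℝ) : Prop :=
  mA (x1 * y1) (x2 * y2) (x3 * y3) + mA (x1 * y2) (x2 * y3) (x3 * y1)
      + mA (x1 * y3) (x2 * y1) (x3 * y2)
    ≤ mA x1 x2 x3 * mS y1 y2 y3 + mS x1 x2 x3 * mA y1 y2 y3
      - mA x1 x2 x3 * mA y1 y2 y3 / 64
      - mW y1 y2 y3 * mF x1 x2 x3 - mW x1 x2 x3 * mF y1 y2 y3

/-- The closure inequality at a pair of vectors. -/
def H6 (x1 x2 x3 y1 y2 y3 : ℝ) : Prop :=
  mP y1 y2 y3 * mF x1 x2 x3 + mP x1 x2 x3 * mF y1 y2 y3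
    ≤ mF (x1 * y1) (x2 * y2) (x3 * y3) + mF (x1 * y2) (x2 * y3) (x3 * y1)
      + mF (x1 * y3) (x2 * y1) (x3 * y2)

lemma gPoly_eq {x1 x2 x3 y1 y2 y3 : ℝ} (hS : 0 < tot x1 x2 x3) (hR : 0 < tot y1 y2 y3)
    (h0 : 0 < tot (x1 * y1) (x2 * y2) (x3 * y3)) (h1 : 0 < tot (x1 * y2) (x2 * y3) (x3 * y1))
    (h2 : 0 < tot (x1 * y3) (x2 * y1) (x3 * y2))
    (h : 0 ≤ gPoly rc x1 x2 x3 y1 y2 y3) : G6 x1 x2 x3 y1 y2 y3 := by
  simp only [G6, mA, mS, mF, mW]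
  simp only [gPoly] at h
  generalize tot x1 x2 x3 = S at *
  generalize tot y1 y2 y3 = R at *
  generalize tot (x1 * y1) (x2 * y2) (x3 * y3) = s0 at *
  generalize tot (x1 * y2) (x2 * y3) (x3 * y1) = s1 at *
  generalize tot (x1 * y3) (x2 * y1) (x3 * y2) = s2 at *
  generalize quad rc x1 x2 x3 = a at *
  generalize quad rc y1 y2 y3 = b at *
  generalize quad rc (x1 * y1) (x2 * y2) (x3 * y3) = q0 at *
  generalize quad rc (x1 * y2) (x2 * y3) (x3 * y1) = q1 at *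
  generalize quad rc (x1 * y3) (x2 * y1) (x3 * y2) = q2 at *
  generalize inv100 rc x1 x2 x3 = f at *
  generalize inv100 rc y1 y2 y3 = g at *
  rw [← sub_nonneg]
  have e : a / S * R + S * (b / R) - a / S * (b / R) / 64
      - (2 * (b / R) - b ^ 2 / R ^ 3) * (f / (100 * S ^ 3))
      - (2 * (a / S) - a ^ 2 / S ^ 3) * (g / (100 * R ^ 3))
      - (q0 / s0 + q1 / s1 + q2 / s2)
    = ((rc 6400 * a * (S * S) * (R * R * R * R) + rc 6400 * (S * S * S * S) * b * (R * R)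
        + rc (-100) * a * (S * S) * b * (R * R)
        + rc (-64) * dif rc (rc 2 * b * (R * R)) (b * b) * f
        + rc (-64) * dif rc (rc 2 * a * (S * S)) (a * a) * g) * (s0 * s1 * s2)
      + rc (-6400) * (q0 * (s1 * s2) + q1 * (s0 * s2) + q2 * (s0 * s1))
        * (S * R * (S * R) * (S * R))) / (6400 * (S * R) ^ 3 * (s0 * s1 * s2)) := by
    simp only [dif, rc]; push_cast; field_simp; ring
  rw [e]
  exact div_nonneg h (by positivity)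

lemma hPoly_eq {x1 x2 x3 y1 y2 y3 : ℝ} (hS : 0 < tot x1 x2 x3) (hR : 0 < tot y1 y2 y3)
    (h0 : 0 < tot (x1 * y1) (x2 * y2) (x3 * y3)) (h1 : 0 < tot (x1 * y2) (x2 * y3) (x3 * y1))
    (h2 : 0 < tot (x1 * y3) (x2 * y1) (x3 * y2))
    (h : 0 ≤ hPoly rc x1 x2 x3 y1 y2 y3) : H6 x1 x2 x3 y1 y2 y3 := by
  simp only [H6, mP, mF]
  simp only [hPoly] at h
  generalize tot x1 x2 x3 = S at *
  generalize tot y1 y2 y3 = R at *
  generalize tot (x1 * y1) (x2 * y2) (x3 * y3) = s0 at *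
  generalize tot (x1 * y2) (x2 * y3) (x3 * y1) = s1 at *
  generalize tot (x1 * y3) (x2 * y1) (x3 * y2) = s2 at *
  generalize inv100 rc (x1 * y1) (x2 * y2) (x3 * y3) = q0 at *
  generalize inv100 rc (x1 * y2) (x2 * y3) (x3 * y1) = q1 at *
  generalize inv100 rc (x1 * y3) (x2 * y1) (x3 * y2) = q2 at *
  generalize inv100 rc x1 x2 x3 = f at *
  generalize inv100 rc y1 y2 y3 = g at *
  generalize phi rc x1 x2 x3 = u at *
  generalize phi rc y1 y2 y3 = v at *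
  rw [← sub_nonneg]
  have e : q0 / (100 * s0 ^ 3) + q1 / (100 * s1 ^ 3) + q2 / (100 * s2 ^ 3)
      - (v / R ^ 2 * (f / (100 * S ^ 3)) + u / S ^ 2 * (g / (100 * R ^ 3)))
    = (dif rc ((q0 * (s1 * s2 * (s1 * s2) * (s1 * s2)) + q1 * (s0 * s2 * (s0 * s2) * (s0 * s2))
          + q2 * (s0 * s1 * (s0 * s1) * (s0 * s1))) * (S * R * (S * R) * (S * R)))
        (s0 * s1 * s2 * (s0 * s1 * s2) * (s0 * s1 * s2) * (v * R * f + u * S * g)))
      / (100 * (S * R) ^ 3 * (s0 * s1 * s2) ^ 3) := by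
    simp only [dif, rc]; push_cast; field_simp; ring
  rw [e]
  exact div_nonneg h (by positivity)

lemma g6_shift {x1 x2 x3 y1 y2 y3 : ℝ} (h : G6 x1 x2 x3 y2 y3 y1) : G6 x1 x2 x3 y1 y2 y3 := by
  simp only [G6, mS_rot y1 y2 y3, mA_rot y1 y2 y3, mW_rot y1 y2 y3, mF_rot y1 y2 y3] at h ⊢
  linarith

lemma g6_rot {x1 x2 x3 y1 y2 y3 : ℝ} (h : G6 x2 x3 x1 y2 y3 y1) : G6 x1 x2 x3 y1 y2 y3 := by
  simp only [G6, mS_rot y1 y2 y3, mA_rot y1 y2 y3, mW_rot y1 y2 y3, mF_rot y1 y2 y3,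
    mS_rot x1 x2 x3, mA_rot x1 x2 x3, mW_rot x1 x2 x3, mF_rot x1 x2 x3,
    mA_rot (x1 * y1) (x2 * y2) (x3 * y3), mA_rot (x1 * y2) (x2 * y3) (x3 * y1),
    mA_rot (x1 * y3) (x2 * y1) (x3 * y2)] at h ⊢
  linarith

lemma g6_swap {x1 x2 x3 y1 y2 y3 : ℝ} (h : G6 x1 x3 x2 y1 y3 y2) : G6 x1 x2 x3 y1 y2 y3 := by
  simp only [G6, mS_swap y1 y2 y3, mA_swap y1 y2 y3, mW_swap y1 y2 y3, mF_swap y1 y2 y3,
    mS_swap x1 x2 x3, mA_swap x1 x2 x3, mW_swap x1 x2 x3, mF_swap x1 x2 x3,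
    mA_swap (x1 * y1) (x2 * y2) (x3 * y3), mA_swap (x1 * y2) (x2 * y3) (x3 * y1),
    mA_swap (x1 * y3) (x2 * y1) (x3 * y2)] at h ⊢
  linarith

lemma h6_shift {x1 x2 x3 y1 y2 y3 : ℝ} (h : H6 x1 x2 x3 y2 y3 y1) : H6 x1 x2 x3 y1 y2 y3 := by
  simp only [H6, mP_rot y1 y2 y3, mF_rot y1 y2 y3] at h ⊢
  linarith

lemma h6_rot {x1 x2 x3 y1 y2 y3 : ℝ} (h : H6 x2 x3 x1 y2 y3 y1) : H6 x1 x2 x3 y1 y2 y3 := by
  simp only [H6, mP_rot y1 y2 y3, mF_rot y1 y2 y3, mP_rot x1 x2 x3, mF_rot x1 x2 x3,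
    mF_rot (x1 * y1) (x2 * y2) (x3 * y3), mF_rot (x1 * y2) (x2 * y3) (x3 * y1),
    mF_rot (x1 * y3) (x2 * y1) (x3 * y2)] at h ⊢
  linarith

lemma h6_swap {x1 x2 x3 y1 y2 y3 : ℝ} (h : H6 x1 x3 x2 y1 y3 y2) : H6 x1 x2 x3 y1 y2 y3 := by
  simp only [H6, mP_swap y1 y2 y3, mF_swap y1 y2 y3, mP_swap x1 x2 x3, mF_swap x1 x2 x3,
    mF_swap (x1 * y1) (x2 * y2) (x3 * y3), mF_swap (x1 * y2) (x2 * y3) (x3 * y1),
    mF_swap (x1 * y3) (x2 * y1) (x3 * y2)] at h ⊢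
  linarith

/-- A property invariant under the symmetries holds everywhere once it holds on the two
normalised orientations. -/
lemma of_sorted (P : ℝ → ℝ → ℝ → ℝ → ℝ → ℝ → Prop)
    (shift : ∀ x1 x2 x3 y1 y2 y3, P x1 x2 x3 y2 y3 y1 → P x1 x2 x3 y1 y2 y3)
    (rot : ∀ x1 x2 x3 y1 y2 y3, P x2 x3 x1 y2 y3 y1 → P x1 x2 x3 y1 y2 y3)
    (swp : ∀ x1 x2 x3 y1 y2 y3, P x1 x3 x2 y1 y3 y2 → P x1 x2 x3 y1 y2 y3)
    (base : ∀ x1 x2 x3 y1 y2 y3 : ℝ, 0 < x3 → x3 ≤ x2 → x2 ≤ x1 → 0 < y1 → 0 < y2 → 0 < y3 →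
      y2 ≤ y1 → y3 ≤ y1 → P x1 x2 x3 y1 y2 y3) :
    ∀ x1 x2 x3 y1 y2 y3 : ℝ, 0 < x1 → 0 < x2 → 0 < x3 → 0 < y1 → 0 < y2 → 0 < y3 →
      P x1 x2 x3 y1 y2 y3 := by
  have sorted : ∀ x1 x2 x3 y1 y2 y3 : ℝ, 0 < x3 → x3 ≤ x2 → x2 ≤ x1 → 0 < y1 → 0 < y2 →
      0 < y3 → P x1 x2 x3 y1 y2 y3 := by
    intro x1 x2 x3 y1 y2 y3 a b c d e f
    rcases le_total y2 y1 with h | h
    · rcases le_total y3 y1 with h' | h'
      · exact base _ _ _ _ _ _ a b c d e f h h'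
      · exact shift _ _ _ _ _ _ (shift _ _ _ _ _ _
          (base _ _ _ _ _ _ a b c f d e h' (le_trans h h')))
    · rcases le_total y3 y2 with h' | h'
      · exact shift _ _ _ _ _ _ (base _ _ _ _ _ _ a b c e f d h' h)
      · exact shift _ _ _ _ _ _ (shift _ _ _ _ _ _
          (base _ _ _ _ _ _ a b c f d e (le_trans h h') h'))
  intro x1 x2 x3 y1 y2 y3 a b c d e f
  rcases le_total x2 x1 with h12 | h12 <;> rcases le_total x3 x2 with h23 | h23 <;>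
    rcases le_total x3 x1 with h13 | h13
  · exact sorted _ _ _ _ _ _ c h23 h12 d e f
  · exact sorted _ _ _ _ _ _ c h23 h12 d e f
  · exact swp _ _ _ _ _ _ (sorted _ _ _ _ _ _ b h23 h13 d f e)
  · exact rot _ _ _ _ _ _ (rot _ _ _ _ _ _ (sorted _ _ _ _ _ _ b h12 h13 f d e))
  · exact rot _ _ _ _ _ _ (swp _ _ _ _ _ _ (sorted _ _ _ _ _ _ c h13 h12 e d f))
  · exact rot _ _ _ _ _ _ (sorted _ _ _ _ _ _ a h13 h23 e f d)
  · exact rot _ _ _ _ _ _ (rot _ _ _ _ _ _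
      (swp _ _ _ _ _ _ (sorted _ _ _ _ _ _ a h12 h23 f e d)))
  · exact rot _ _ _ _ _ _ (rot _ _ _ _ _ _
      (swp _ _ _ _ _ _ (sorted _ _ _ _ _ _ a h12 h23 f e d)))

lemma onCones_D (F : ℝ → ℝ → ℝ → ℝ → ℝ → ℝ → ℝ) (x1 x2 x3 y1 y2 y3 : ℝ) :
    onCones rc F coneD coneD (x1 - x2) (x2 - x3) x3 (y1 - y2) (y2 - y3) y3
      = F x1 x2 x3 y1 y2 y3 := by
  simp only [onCones, combo, rc, coneD]; push_cast; ring_nf

lemma onCones_R (F : ℝ → ℝ → ℝ → ℝ → ℝ → ℝ → ℝ) (x1 x2 x3 y1 y2 y3 : ℝ) :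
    onCones rc F coneD coneR (x1 - x2) (x2 - x3) x3 (y1 - y3) (y3 - y2) y2
      = F x1 x2 x3 y1 y2 y3 := by
  simp only [onCones, combo, rc, coneD, coneR]; push_cast; ring_nf

lemma from_cones (F : ℝ → ℝ → ℝ → ℝ → ℝ → ℝ → ℝ) (hd : NN F coneD coneD) (hr : NN F coneD coneR)
    (x1 x2 x3 y1 y2 y3 : ℝ) (a : 0 < x3) (b : x3 ≤ x2) (c : x2 ≤ x1) (e : 0 < y2) (f : 0 < y3)
    (g : y2 ≤ y1) (g' : y3 ≤ y1) : 0 ≤ F x1 x2 x3 y1 y2 y3 := by
  rcases le_total y3 y2 with h | h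
  · rw [← onCones_D F]
    exact hd _ _ _ _ _ _ (by linarith) (by linarith) a.le (by linarith) (by linarith) f.le
  · rw [← onCones_R F]
    exact hr _ _ _ _ _ _ (by linarith) (by linarith) a.le (by linarith) (by linarith) e.le

lemma g6_pos : ∀ x1 x2 x3 y1 y2 y3 : ℝ, 0 < x1 → 0 < x2 → 0 < x3 → 0 < y1 → 0 < y2 → 0 < y3 →
    G6 x1 x2 x3 y1 y2 y3 :=
  of_sorted G6 (fun _ _ _ _ _ _ => g6_shift) (fun _ _ _ _ _ _ => g6_rot)
    (fun _ _ _ _ _ _ => g6_swap) (fun x1 x2 x3 y1 y2 y3 a b c d e f g g' => by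
      have h1 : 0 < x1 := by linarith
      have h2 : 0 < x2 := by linarith
      refine gPoly_eq ?_ ?_ ?_ ?_ ?_ (from_cones _ g_same g_rev _ _ _ _ _ _ a b c e f g g') <;>
        (simp only [tot]; positivity))

lemma h6_pos : ∀ x1 x2 x3 y1 y2 y3 : ℝ, 0 < x1 → 0 < x2 → 0 < x3 → 0 < y1 → 0 < y2 → 0 < y3 →
    H6 x1 x2 x3 y1 y2 y3 :=
  of_sorted H6 (fun _ _ _ _ _ _ => h6_shift) (fun _ _ _ _ _ _ => h6_rot)
    (fun _ _ _ _ _ _ => h6_swap) (fun x1 x2 x3 y1 y2 y3 a b c d e f g g' => by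
      have h1 : 0 < x1 := by linarith
      have h2 : 0 < x2 := by linarith
      refine hPoly_eq ?_ ?_ ?_ ?_ ?_ (from_cones _ h_same h_rev _ _ _ _ _ _ a b c e f g g') <;>
        (simp only [tot]; positivity))

section limit

/-- Right-sided convergence at zero along a path, for a moment function that is bounded by
a multiple of the mass and continuous where the mass is positive. -/
lemma tendsto_moment (g : ℝ → ℝ → ℝ → ℝ) (C : ℝ)
    (hb : ∀ p q r : ℝ, 0 ≤ p → 0 ≤ q → 0 ≤ r → |g p q r| ≤ C * mS p q r)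
    (hc : ∀ f1 f2 f3 : ℝ → ℝ, Continuous f1 → Continuous f2 → Continuous f3 →
      tot (f1 0) (f2 0) (f3 0) ≠ 0 → ContinuousAt (fun e => g (f1 e) (f2 e) (f3 e)) 0)
    (f1 f2 f3 : ℝ → ℝ) (c1 : Continuous f1) (c2 : Continuous f2) (c3 : Continuous f3)
    (n1 : ∀ e, 0 ≤ e → 0 ≤ f1 e) (n2 : ∀ e, 0 ≤ e → 0 ≤ f2 e) (n3 : ∀ e, 0 ≤ e → 0 ≤ f3 e) :
    Tendsto (fun e => g (f1 e) (f2 e) (f3 e)) (𝓝[>] (0 : ℝ)) (𝓝 (g (f1 0) (f2 0) (f3 0))) := by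
  by_cases h : tot (f1 0) (f2 0) (f3 0) = 0
  · have h0 : g (f1 0) (f2 0) (f3 0) = 0 := by
      have := hb _ _ _ (n1 0 le_rfl) (n2 0 le_rfl) (n3 0 le_rfl)
      rw [mS, h, mul_zero] at this
      exact abs_eq_zero.mp (le_antisymm this (abs_nonneg _))
    rw [h0]
    have hlim : Tendsto (fun e => C * mS (f1 e) (f2 e) (f3 e)) (𝓝[>] (0 : ℝ)) (𝓝 0) := by
      have hcont : Continuous fun e => C * mS (f1 e) (f2 e) (f3 e) := by
        simp only [mS, tot]; fun_prop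
      have := (hcont.tendsto 0).mono_left (nhdsWithin_le_nhds (s := Set.Ioi (0 : ℝ)))
      simpa [mS, h] using this
    refine squeeze_zero_norm' ?_ hlim
    filter_upwards [self_mem_nhdsWithin] with e he
    have he' : (0 : ℝ) ≤ e := le_of_lt he
    exact hb _ _ _ (n1 e he') (n2 e he') (n3 e he')
  · exact (hc f1 f2 f3 c1 c2 c3 h).tendsto.mono_left nhdsWithin_le_nhds

variable (f1 f2 f3 : ℝ → ℝ) (c1 : Continuous f1) (c2 : Continuous f2) (c3 : Continuous f3)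
  (n1 : ∀ e, 0 ≤ e → 0 ≤ f1 e) (n2 : ∀ e, 0 ≤ e → 0 ≤ f2 e) (n3 : ∀ e, 0 ≤ e → 0 ≤ f3 e)
include c1 c2 c3 n1 n2 n3

lemma tendsto_mA :
    Tendsto (fun e => mA (f1 e) (f2 e) (f3 e)) (𝓝[>] (0 : ℝ)) (𝓝 (mA (f1 0) (f2 0) (f3 0))) :=
  tendsto_moment mA 1
    (fun p q r hp hq hr => by
      rw [abs_of_nonneg (mA_nonneg hp hq hr), one_mul]; exact mA_le hp hq hr)
    (fun g1 g2 g3 d1 d2 d3 h => by
      refine ContinuousAt.div ?_ ?_ h <;> (simp only [quad, tot, dif]; fun_prop))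
    f1 f2 f3 c1 c2 c3 n1 n2 n3

lemma tendsto_mF :
    Tendsto (fun e => mF (f1 e) (f2 e) (f3 e)) (𝓝[>] (0 : ℝ)) (𝓝 (mF (f1 0) (f2 0) (f3 0))) :=
  tendsto_moment mF 5 (fun p q r hp hq hr => abs_mF_le hp hq hr)
    (fun g1 g2 g3 d1 d2 d3 h => by
      refine ContinuousAt.div ?_ ?_ (mul_ne_zero (by norm_num) (pow_ne_zero 3 h)) <;>
        (simp only [inv100, cub, quad, tot, dif]; fun_prop))
    f1 f2 f3 c1 c2 c3 n1 n2 n3

lemma tendsto_mP :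
    Tendsto (fun e => mP (f1 e) (f2 e) (f3 e)) (𝓝[>] (0 : ℝ)) (𝓝 (mP (f1 0) (f2 0) (f3 0))) :=
  tendsto_moment mP 27
    (fun p q r hp hq hr => by
      rw [abs_of_nonneg (mP_nonneg hp hq hr)]; exact mP_le hp hq hr)
    (fun g1 g2 g3 d1 d2 d3 h => by
      refine ContinuousAt.div ?_ ?_ (pow_ne_zero 2 h) <;>
        (simp only [phi, cub, quad, tot, dif]; fun_prop))
    f1 f2 f3 c1 c2 c3 n1 n2 n3

lemma tendsto_mW :
    Tendsto (fun e => mW (f1 e) (f2 e) (f3 e)) (𝓝[>] (0 : ℝ)) (𝓝 (mW (f1 0) (f2 0) (f3 0))) :=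
  tendsto_moment mW 2
    (fun p q r hp hq hr => by
      rw [abs_of_nonneg (mW_nonneg hp hq hr)]; exact mW_le hp hq hr)
    (fun g1 g2 g3 d1 d2 d3 h => by
      refine ContinuousAt.sub (ContinuousAt.mul ?_ (ContinuousAt.div ?_ ?_ h))
        (ContinuousAt.div ?_ ?_ (pow_ne_zero 3 h)) <;>
        (first | fun_prop | (simp only [quad, tot, dif]; fun_prop)))
    f1 f2 f3 c1 c2 c3 n1 n2 n3

lemma tendsto_mS :
    Tendsto (fun e => mS (f1 e) (f2 e) (f3 e)) (𝓝[>] (0 : ℝ)) (𝓝 (mS (f1 0) (f2 0) (f3 0))) := by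
  have h : Continuous fun e => mS (f1 e) (f2 e) (f3 e) := by simp only [mS, tot]; fun_prop
  exact (h.tendsto 0).mono_left nhdsWithin_le_nhds

end limit

theorem g6_all {x1 x2 x3 y1 y2 y3 : ℝ} (a : 0 ≤ x1) (b : 0 ≤ x2) (c : 0 ≤ x3)
    (d : 0 ≤ y1) (e : 0 ≤ y2) (f : 0 ≤ y3) : G6 x1 x2 x3 y1 y2 y3 := by
  have sh : ∀ {z : ℝ}, 0 ≤ z → ∀ t : ℝ, 0 ≤ t → 0 ≤ z + t := fun hz t ht => add_nonneg hz ht
  have pr : ∀ {z w : ℝ}, 0 ≤ z → 0 ≤ w → ∀ t : ℝ, 0 ≤ t → 0 ≤ (z + t) * (w + t) :=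
    fun hz hw t ht => mul_nonneg (add_nonneg hz ht) (add_nonneg hw ht)
  have l0 := tendsto_mA (fun t => (x1 + t) * (y1 + t)) (fun t => (x2 + t) * (y2 + t))
    (fun t => (x3 + t) * (y3 + t)) (by fun_prop) (by fun_prop) (by fun_prop)
    (pr a d) (pr b e) (pr c f)
  have l1 := tendsto_mA (fun t => (x1 + t) * (y2 + t)) (fun t => (x2 + t) * (y3 + t))
    (fun t => (x3 + t) * (y1 + t)) (by fun_prop) (by fun_prop) (by fun_prop)
    (pr a e) (pr b f) (pr c d)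
  have l2 := tendsto_mA (fun t => (x1 + t) * (y3 + t)) (fun t => (x2 + t) * (y1 + t))
    (fun t => (x3 + t) * (y2 + t)) (by fun_prop) (by fun_prop) (by fun_prop)
    (pr a f) (pr b d) (pr c e)
  have ax := tendsto_mA (x1 + ·) (x2 + ·) (x3 + ·) (by fun_prop) (by fun_prop) (by fun_prop)
    (sh a) (sh b) (sh c)
  have ay := tendsto_mA (y1 + ·) (y2 + ·) (y3 + ·) (by fun_prop) (by fun_prop) (by fun_prop)
    (sh d) (sh e) (sh f)
  have sx := tendsto_mS (x1 + ·) (x2 + ·) (x3 + ·) (by fun_prop) (by fun_prop) (by fun_prop)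
    (sh a) (sh b) (sh c)
  have sy := tendsto_mS (y1 + ·) (y2 + ·) (y3 + ·) (by fun_prop) (by fun_prop) (by fun_prop)
    (sh d) (sh e) (sh f)
  have wx := tendsto_mW (x1 + ·) (x2 + ·) (x3 + ·) (by fun_prop) (by fun_prop) (by fun_prop)
    (sh a) (sh b) (sh c)
  have wy := tendsto_mW (y1 + ·) (y2 + ·) (y3 + ·) (by fun_prop) (by fun_prop) (by fun_prop)
    (sh d) (sh e) (sh f)
  have fx := tendsto_mF (x1 + ·) (x2 + ·) (x3 + ·) (by fun_prop) (by fun_prop) (by fun_prop)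
    (sh a) (sh b) (sh c)
  have fy := tendsto_mF (y1 + ·) (y2 + ·) (y3 + ·) (by fun_prop) (by fun_prop) (by fun_prop)
    (sh d) (sh e) (sh f)
  have key := le_of_tendsto_of_tendsto ((l0.add l1).add l2)
    (((((ax.mul sy).add (sx.mul ay)).sub ((ax.mul ay).div_const 64)).sub (wy.mul fx)).sub
      (wx.mul fy)) (by
      filter_upwards [self_mem_nhdsWithin] with t ht
      have ht' : (0 : ℝ) < t := ht
      exact g6_pos _ _ _ _ _ _ (by linarith) (by linarith) (by linarith) (by linarith)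
        (by linarith) (by linarith))
  simpa [G6] using key

theorem h6_all {x1 x2 x3 y1 y2 y3 : ℝ} (a : 0 ≤ x1) (b : 0 ≤ x2) (c : 0 ≤ x3)
    (d : 0 ≤ y1) (e : 0 ≤ y2) (f : 0 ≤ y3) : H6 x1 x2 x3 y1 y2 y3 := by
  have sh : ∀ {z : ℝ}, 0 ≤ z → ∀ t : ℝ, 0 ≤ t → 0 ≤ z + t := fun hz t ht => add_nonneg hz ht
  have pr : ∀ {z w : ℝ}, 0 ≤ z → 0 ≤ w → ∀ t : ℝ, 0 ≤ t → 0 ≤ (z + t) * (w + t) :=
    fun hz hw t ht => mul_nonneg (add_nonneg hz ht) (add_nonneg hw ht)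
  have l0 := tendsto_mF (fun t => (x1 + t) * (y1 + t)) (fun t => (x2 + t) * (y2 + t))
    (fun t => (x3 + t) * (y3 + t)) (by fun_prop) (by fun_prop) (by fun_prop)
    (pr a d) (pr b e) (pr c f)
  have l1 := tendsto_mF (fun t => (x1 + t) * (y2 + t)) (fun t => (x2 + t) * (y3 + t))
    (fun t => (x3 + t) * (y1 + t)) (by fun_prop) (by fun_prop) (by fun_prop)
    (pr a e) (pr b f) (pr c d)
  have l2 := tendsto_mF (fun t => (x1 + t) * (y3 + t)) (fun t => (x2 + t) * (y1 + t))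
    (fun t => (x3 + t) * (y2 + t)) (by fun_prop) (by fun_prop) (by fun_prop)
    (pr a f) (pr b d) (pr c e)
  have px := tendsto_mP (x1 + ·) (x2 + ·) (x3 + ·) (by fun_prop) (by fun_prop) (by fun_prop)
    (sh a) (sh b) (sh c)
  have py := tendsto_mP (y1 + ·) (y2 + ·) (y3 + ·) (by fun_prop) (by fun_prop) (by fun_prop)
    (sh d) (sh e) (sh f)
  have fx := tendsto_mF (x1 + ·) (x2 + ·) (x3 + ·) (by fun_prop) (by fun_prop) (by fun_prop)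
    (sh a) (sh b) (sh c)
  have fy := tendsto_mF (y1 + ·) (y2 + ·) (y3 + ·) (by fun_prop) (by fun_prop) (by fun_prop)
    (sh d) (sh e) (sh f)
  have key := le_of_tendsto_of_tendsto ((py.mul fx).add (px.mul fy)) ((l0.add l1).add l2) (by
      filter_upwards [self_mem_nhdsWithin] with t ht
      have ht' : (0 : ℝ) < t := ht
      exact h6_pos _ _ _ _ _ _ (by linarith) (by linarith) (by linarith) (by linarith)
        (by linarith) (by linarith))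
  simpa [H6] using key

end Vale.Agent.P154
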