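import Mathlib.Data.Real.Basic
import Mathlib.Tactic.Ring
import Mathlib.Tactic.Linarith
import Mathlib.Tactic.Positivity

/-!
A small certificate checker: a polynomial expression with integer coefficients in four
nonnegative variables is nonnegative when all its expanded coefficients are nonnegative.
-/

namespace Vale.Agent.P154

/-- Dense nested polynomials in `n` variables. -/
@[reducible] def Pol : ℕ → Type
  | 0 => ℤ
  | n + 1 => List (Pol n)

namespace Pol

/-- Termwise addition of coefficient lists. -/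
def zipAdd {α : Type} (f : α → α → α) : List α → List α → List α
  | [], bs => bs
  | a :: as, [] => a :: as
  | a :: as, b :: bs => f a b :: zipAdd f as bs

/-- Addition. -/
def add : (n : ℕ) → Pol n → Pol n → Pol n
  | 0 => fun (a b : ℤ) => a + b
  | n + 1 => fun (a b : List (Pol n)) => zipAdd (add n) a b

/-- The zero polynomial. -/
def zero : (n : ℕ) → Pol n
  | 0 => (0 : ℤ)
  | _ + 1 => []

/-- List multiplication by the schoolbook method. -/
def listMul {α : Type} (z : α) (f g : α → α → α) : List α → List α → List α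
  | [], _ => []
  | a :: as, bs => zipAdd f (bs.map (g a)) (z :: listMul z f g as bs)

/-- Multiplication. -/
def mul : (n : ℕ) → Pol n → Pol n → Pol n
  | 0 => fun (a b : ℤ) => a * b
  | n + 1 => fun (a b : List (Pol n)) => listMul (zero n) (add n) (mul n) a b

/-- Constants. -/
def const : (n : ℕ) → ℤ → Pol n
  | 0, z => z
  | n + 1, z => [const n z]

/-- The variable with index `i`. -/
def var : (n : ℕ) → ℕ → Pol n
  | 0, _ => (0 : ℤ)
  | n + 1, i => if i = n then [zero n, const n 1] else [var n i]

/-- All coefficients are nonnegative. -/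
def nonneg : (n : ℕ) → Pol n → Bool
  | 0 => fun (a : ℤ) => decide (0 ≤ a)
  | n + 1 => fun (a : List (Pol n)) => List.all a (nonneg n)

/-- Horner evaluation of a coefficient list. -/
def listEval {α : Type} (e : α → ℝ) (x : ℝ) : List α → ℝ
  | [] => 0
  | a :: as => e a + x * listEval e x as

/-- Evaluation. -/
def eval (x : ℕ → ℝ) : (n : ℕ) → Pol n → ℝ
  | 0 => fun (a : ℤ) => ((a : ℤ) : ℝ)
  | n + 1 => fun (a : List (Pol n)) => listEval (eval x n) (x n) a

lemma listEval_zipAdd {α : Type} (e : α → ℝ) (x : ℝ) (f : α → α → α)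
    (hf : ∀ a b, e (f a b) = e a + e b) :
    ∀ as bs, listEval e x (zipAdd f as bs) = listEval e x as + listEval e x bs
  | [], bs => by simp [zipAdd, listEval]
  | a :: as, [] => by simp [zipAdd, listEval]
  | a :: as, b :: bs => by
    simp only [zipAdd, listEval, hf, listEval_zipAdd e x f hf as bs]; ring

lemma eval_add (x : ℕ → ℝ) : ∀ n a b, eval x n (add n a b) = eval x n a + eval x n b
  | 0, a, b => Int.cast_add (R := ℝ) a b
  | n + 1, a, b => listEval_zipAdd _ _ _ (eval_add x n) a b

lemma eval_zero (x : ℕ → ℝ) : ∀ n, eval x n (zero n) = 0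
  | 0 => Int.cast_zero
  | n + 1 => rfl

lemma listEval_map {α : Type} (e : α → ℝ) (x : ℝ) (h : α → α) (c : ℝ)
    (hh : ∀ b, e (h b) = c * e b) :
    ∀ bs, listEval e x (bs.map h) = c * listEval e x bs
  | [] => by simp [listEval]
  | b :: bs => by
    simp only [List.map, listEval, hh, listEval_map e x h c hh bs]; ring

lemma eval_mul (x : ℕ → ℝ) : ∀ n a b, eval x n (mul n a b) = eval x n a * eval x n b
  | 0, a, b => Int.cast_mul (α := ℝ) a b
  | n + 1, a, b => by
    change listEval (eval x n) (x n) (listMul (zero n) (add n) (mul n) a b)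
      = listEval (eval x n) (x n) a * listEval (eval x n) (x n) b
    induction a with
    | nil => simp [listMul, listEval]
    | cons c cs ih =>
      simp only [listMul, listEval_zipAdd _ _ _ (eval_add x n)]
      rw [listEval_map _ _ _ (eval x n c) (fun b => eval_mul x n c b)]
      simp only [listEval, eval_zero, ih]; ring

lemma eval_const (x : ℕ → ℝ) : ∀ n (z : ℤ), eval x n (const n z) = (z : ℝ)
  | 0, z => rfl
  | n + 1, z => by
    change eval x n (const n z) + x n * 0 = (z : ℝ)
    rw [eval_const x n z]; ring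

lemma eval_var (x : ℕ → ℝ) : ∀ n i, i < n → eval x n (var n i) = x i
  | 0, i, h => absurd h (Nat.not_lt_zero i)
  | n + 1, i, h => by
    by_cases hi : i = n
    · subst hi
      rw [var, if_pos rfl]
      change eval x i (zero i) + x i * (eval x i (const i 1) + x i * 0) = x i
      rw [eval_zero, eval_const]; push_cast; ring
    · rw [var, if_neg hi]
      change eval x n (var n i) + x n * 0 = x i
      rw [eval_var x n i (by omega)]; ring

lemma listEval_nonneg {α : Type} (e : α → ℝ) (x : ℝ) (hx : 0 ≤ x) :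
    ∀ as : List α, (∀ a ∈ as, 0 ≤ e a) → 0 ≤ listEval e x as
  | [], _ => le_refl _
  | a :: as, h => by
    have h1 := h a (by simp)
    have h2 := listEval_nonneg e x hx as (fun b hb => h b (by simp [hb]))
    simp only [listEval]; positivity

lemma eval_nonneg (x : ℕ → ℝ) (hx : ∀ i, 0 ≤ x i) :
    ∀ n a, nonneg n a = true → 0 ≤ eval x n a
  | 0, a, h => Int.cast_nonneg (R := ℝ) (of_decide_eq_true h)
  | n + 1, a, h => listEval_nonneg _ _ (hx n) a
      (fun b hb => eval_nonneg x hx n b (List.all_eq_true.mp h b hb))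

end Pol

/-- Integer polynomial expressions. -/
inductive Ex : Type
  | c : ℤ → Ex
  | x : ℕ → Ex
  | add : Ex → Ex → Ex
  | mul : Ex → Ex → Ex

namespace Ex

/-- Value of an expression. -/
def val (ρ : ℕ → ℝ) : Ex → ℝ
  | c z => (z : ℝ)
  | x i => ρ i
  | add a b => val ρ a + val ρ b
  | mul a b => val ρ a * val ρ b

/-- Expansion in four variables. -/
def norm : Ex → Pol 4
  | c z => Pol.const 4 z
  | x i => if i < 4 then Pol.var 4 i else Pol.zero 4
  | add a b => Pol.add 4 (norm a) (norm b)
  | mul a b => Pol.mul 4 (norm a) (norm b)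

lemma eval_norm (ρ : ℕ → ℝ) (hρ : ∀ i, 4 ≤ i → ρ i = 0) :
    ∀ e : Ex, Pol.eval ρ 4 (norm e) = val ρ e
  | c z => Pol.eval_const ρ 4 z
  | x i => by
    by_cases h : i < 4
    · simp only [norm, if_pos h, val, Pol.eval_var ρ 4 i h]
    · simp only [norm, if_neg h, val, Pol.eval_zero, hρ i (by omega)]
  | add a b => by simp only [norm, val, Pol.eval_add, eval_norm ρ hρ a, eval_norm ρ hρ b]
  | mul a b => by simp only [norm, val, Pol.eval_mul, eval_norm ρ hρ a, eval_norm ρ hρ b]

lemma val_nonneg (e : Ex) (h : Pol.nonneg 4 (norm e) = true) (ρ : ℕ → ℝ)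
    (h0 : ∀ i, 0 ≤ ρ i) (h1 : ∀ i, 4 ≤ i → ρ i = 0) : 0 ≤ val ρ e := by
  rw [← eval_norm ρ h1 e]; exact Pol.eval_nonneg ρ h0 4 _ h

end Ex

end Vale.Agent.P154
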