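import Vale.Agent.P154.KSAdm

/-!
The exact threshold for three states at high degree or moderately negative parameter.
-/

namespace Vale.Agent.P154.ThreeState

open Vale.Agent.P154

lemma nonrec3 {p : ℕ → ℝ} {d l : ℝ} (hp : Law p d) (hb : 0 < branch p)
    (h0 : -(99 / 500) ≤ l) (h1 : l ≤ 1) (hd : d * l ^ 2 ≤ 1) : Nonreconstruction p l := by
  rcases le_or_gt 0 l with h | h
  · exact nonreconstruction_of_le hp h h1 hd hb
  · exact nonreconstruction_near hp h0 h hd hb

lemma dichotomy {p : ℕ → ℝ} {d m2 l : ℝ} (hp : Law p d) (hb : 0 < branch p)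
    (hm : HasSum (fun N : ℕ => (N : ℝ) * ((N : ℝ) - 1) * p N) m2)
    (h0 : -(1 / 2) ≤ l) (h1 : l ≤ 1) (hc : 26 ≤ d ∨ -(99 / 500) ≤ l) :
    (Reconstruction p l ↔ 1 < d * l ^ 2) ∧ (Nonreconstruction p l ↔ d * l ^ 2 ≤ 1) := by
  have rec_ : 1 < d * l ^ 2 → Reconstruction p l := reconstruction_adm hp h0 h1 hm
  have non_ : d * l ^ 2 ≤ 1 → Nonreconstruction p l := by
    intro hd
    refine nonrec3 hp hb ?_ h1 hd
    rcases hc with h26 | h
    · by_contra hlt
      have hsq : (99 / 500 : ℝ) ^ 2 ≤ l ^ 2 := by nlinarith [not_le.mp hlt]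
      have := mul_le_mul h26 hsq (by positivity) (by linarith)
      norm_num at this
      linarith
    · exact h
  have excl : Nonreconstruction p l → ¬ Reconstruction p l := by
    rintro h ⟨ε, hε, hb'⟩
    have := ge_of_tendsto h (Filter.Eventually.of_forall hb')
    linarith
  refine ⟨⟨fun h => ?_, rec_⟩, ⟨fun h => ?_, non_⟩⟩
  · by_contra hn
    exact excl (non_ (not_lt.mp hn)) h
  · by_contra hn
    exact excl h (rec_ (not_le.mp hn))

end Vale.Agent.P154.ThreeState
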